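import Mathlib.RingTheory.AlgebraicIndependent.TranscendenceBasis
import Mathlib.Combinatorics.Matroid.Rank.ENat
import Mathlib.RingTheory.MvPolynomial.Homogeneous
import Mathlib.LinearAlgebra.AffineSpace.Independent
import Mathlib.LinearAlgebra.AffineSpace.Combination
import Mathlib.Tactic

/-! Polynomials without homogeneous relation have affinely independent exponents. -/

namespace Vale.Agent.P281.ToricBundles

variable {n : ℕ}

/-- The monomial `T t ^ χ`. -/
noncomputable def tm (χ : Fin n →₀ ℕ) : Polynomial (MvPolynomial (Fin n) ℂ) :=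
  Polynomial.C (MvPolynomial.monomial χ 1) * Polynomial.X

theorem tm_ne_zero (χ : Fin n →₀ ℕ) : tm χ ≠ 0 := by
  unfold tm
  refine mul_ne_zero ?_ Polynomial.X_ne_zero
  rw [Ne, Polynomial.C_eq_zero, MvPolynomial.monomial_eq_zero]
  exact one_ne_zero

theorem tm_pow (χ : Fin n →₀ ℕ) (k : ℕ) :
    tm χ ^ k = Polynomial.C (MvPolynomial.monomial (k • χ) 1) * Polynomial.X ^ k := by
  unfold tm
  rw [mul_pow, ← Polynomial.C_pow, MvPolynomial.monomial_pow, one_pow]

theorem prod_tm {ι : Type*} (A : Finset ι) (τ : ι → Fin n →₀ ℕ) (k : ι → ℕ) :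
    ∏ i ∈ A, tm (τ i) ^ k i =
      Polynomial.C (MvPolynomial.monomial (∑ i ∈ A, k i • τ i) 1) *
        Polynomial.X ^ (∑ i ∈ A, k i) := by
  classical
  induction A using Finset.induction_on with
  | empty => simp
  | insert a A ha ih =>
    rw [Finset.prod_insert ha, Finset.sum_insert ha, Finset.sum_insert ha, ih, tm_pow,
      mul_mul_mul_comm, ← Polynomial.C_mul, MvPolynomial.monomial_mul, one_mul, ← pow_add]

theorem exists_int_clear {ι : Type*} [Fintype ι] (x : ι → ℚ) :
    ∃ (k : ℕ) (a : ι → ℤ), 0 < k ∧ ∀ i, (a i : ℚ) = k * x i := by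
  classical
  refine ⟨∏ i, (x i).den, fun i => (x i).num * ∏ i' ∈ Finset.univ.erase i, ((x i').den : ℤ),
    Finset.prod_pos fun i _ => (x i).den_pos, fun i => ?_⟩
  rw [← Finset.mul_prod_erase Finset.univ (fun i => (x i).den) (Finset.mem_univ i)]
  push_cast
  have h2 : ((x i).num : ℚ) = x i * (x i).den := (Rat.mul_den_eq_num (x i)).symm
  rw [h2]
  ring

/-- A monomial whose exponent is an affine combination is algebraic. -/
theorem isAlgebraic_tm (t : Set (Fin n →₀ ℕ)) [Fintype t] (χ : Fin n →₀ ℕ) (w : t → ℚ)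
    (hw : ∑ τ, w τ = 1) (hχ : ∀ l, (χ l : ℚ) = ∑ τ, w τ * (τ.1 l : ℚ)) :
    IsAlgebraic (Algebra.adjoin ℂ (tm '' t)) (tm χ) := by
  classical
  obtain ⟨N, z, hN, hz⟩ := exists_int_clear w
  let p : t → ℕ := fun τ => (z τ).toNat
  let q : t → ℕ := fun τ => (-z τ).toNat
  have hpq : ∀ τ, (p τ : ℤ) - q τ = z τ := by
    intro τ
    simp only [p, q]
    omega
  have hpq' : ∀ τ, (p τ : ℚ) = N * w τ + q τ := by
    intro τ
    have h1 := congrArg (fun x : ℤ => (x : ℚ)) (hpq τ)
    push_cast at h1
    rw [hz] at h1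
    linarith
  have hrel : tm χ ^ N * ∏ τ : t, tm τ.1 ^ q τ = ∏ τ : t, tm τ.1 ^ p τ := by
    rw [prod_tm, prod_tm, tm_pow, mul_mul_mul_comm, ← Polynomial.C_mul, MvPolynomial.monomial_mul,
      one_mul, ← pow_add]
    have h1 : N • χ + ∑ τ : t, q τ • τ.1 = ∑ τ : t, p τ • τ.1 := by
      ext l
      simp only [Finsupp.add_apply, Finsupp.smul_apply, Finsupp.finsetSum_apply, smul_eq_mul]
      have h2 : (N : ℚ) * χ l + ∑ τ : t, (q τ : ℚ) * (τ.1 l : ℚ) =
          ∑ τ : t, (p τ : ℚ) * (τ.1 l : ℚ) := by
        rw [hχ, Finset.mul_sum, ← Finset.sum_add_distrib]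
        refine Finset.sum_congr rfl fun τ _ => ?_
        rw [hpq']
        ring
      exact_mod_cast h2
    have h2 : N + ∑ τ : t, q τ = ∑ τ : t, p τ := by
      have h3 : (N : ℚ) + ∑ τ : t, (q τ : ℚ) = ∑ τ : t, (p τ : ℚ) := by
        simp only [hpq', Finset.sum_add_distrib, ← Finset.mul_sum, hw, mul_one]
      exact_mod_cast h3
    rw [h1, h2]
  have hmem : ∀ k : t → ℕ, ∏ τ : t, tm τ.1 ^ k τ ∈ Algebra.adjoin ℂ (tm '' t) := by
    intro k
    refine Subalgebra.prod_mem _ fun τ _ => Subalgebra.pow_mem _ ?_ _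
    exact Algebra.subset_adjoin ⟨τ.1, τ.2, rfl⟩
  have hne : (∏ τ : t, tm τ.1 ^ q τ) ≠ 0 :=
    Finset.prod_ne_zero_iff.2 fun τ _ => pow_ne_zero _ (tm_ne_zero _)
  refine ⟨Polynomial.C ⟨_, hmem q⟩ * Polynomial.X ^ N - Polynomial.C ⟨_, hmem p⟩, ?_, ?_⟩
  · intro h0
    have h1 := congrArg (fun f => Polynomial.coeff f N) h0
    simp only [Polynomial.coeff_sub, Polynomial.coeff_C_mul, Polynomial.coeff_X_pow, if_true,
      mul_one, Polynomial.coeff_C, hN.ne', if_false, Polynomial.coeff_zero] at h1
    exact hne (congrArg Subtype.val (sub_eq_zero.1 h1))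
  · rw [map_sub, map_mul, map_pow, Polynomial.aeval_C, Polynomial.aeval_C, Polynomial.aeval_X]
    change (∏ τ : t, tm τ.1 ^ q τ) * tm χ ^ N - ∏ τ : t, tm τ.1 ^ p τ = 0
    rw [← hrel]
    ring

theorem aeval_hom {κ : Type*} [Fintype κ] (p : κ → MvPolynomial (Fin n) ℂ) {e : ℕ}
    {Q : MvPolynomial κ ℂ} (hQ : Q.IsHomogeneous e) :
    MvPolynomial.aeval (fun c => Polynomial.C (p c) * Polynomial.X) Q =
      Polynomial.C (MvPolynomial.aeval p Q) * Polynomial.X ^ e := by
  classical
  rw [MvPolynomial.aeval_def, MvPolynomial.aeval_def, MvPolynomial.eval₂_eq',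
    MvPolynomial.eval₂_eq', map_sum, Finset.sum_mul]
  refine Finset.sum_congr rfl fun m hm => ?_
  have h1 : ∑ c, m c = e := by
    have := hQ (MvPolynomial.mem_support_iff.1 hm)
    rw [← this, Finsupp.weight_apply, Finsupp.sum_fintype _ _ (by simp)]
    simp
  simp only [mul_pow, Finset.prod_mul_distrib, Finset.prod_pow_eq_pow_sum, h1]
  rw [Polynomial.algebraMap_apply, map_mul, map_prod, mul_assoc]
  simp only [map_pow]

/-- Polynomials without homogeneous relation: times `T` they are algebraically independent. -/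
theorem algebraicIndependent_of {κ : Type*} [Fintype κ] (p : κ → MvPolynomial (Fin n) ℂ)
    (hind : ∀ (e : ℕ) (P : MvPolynomial κ ℂ), P.IsHomogeneous e →
      MvPolynomial.aeval p P = 0 → P = 0) :
    AlgebraicIndependent ℂ fun c => Polynomial.C (p c) * Polynomial.X := by
  classical
  rw [algebraicIndependent_iff]
  intro Q hQ
  have h1 : ∀ e, MvPolynomial.homogeneousComponent e Q = 0 := by
    intro e
    refine hind e _ (MvPolynomial.homogeneousComponent_isHomogeneous e Q) ?_
    by_cases he : e ∈ Finset.range (Q.totalDegree + 1)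
    · have h2 := hQ
      rw [← MvPolynomial.sum_homogeneousComponent Q, map_sum] at h2
      simp only [aeval_hom p (MvPolynomial.homogeneousComponent_isHomogeneous _ Q)] at h2
      have h3 := congrArg (fun f => Polynomial.coeff f e) h2
      simp only [Polynomial.finsetSum_coeff, Polynomial.coeff_C_mul, Polynomial.coeff_X_pow,
        mul_ite, mul_one, mul_zero, Polynomial.coeff_zero] at h3
      rw [Finset.sum_eq_single e] at h3
      · simpa using h3
      · intro e' _ hne
        rw [if_neg (Ne.symm hne)]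
      · intro h
        exact absurd he h
    · rw [MvPolynomial.homogeneousComponent_eq_zero _ _ (by
        rw [Finset.mem_range] at he
        omega), map_zero]
  rw [← MvPolynomial.sum_homogeneousComponent Q]
  exact Finset.sum_eq_zero fun e _ => h1 e

/-- If `a + 1` polynomials satisfy no homogeneous equation, then among their exponents there are
`a + 1` affinely independent ones. -/
theorem exists_affineIndependent_exponents {a : ℕ} (A : Finset (Fin n →₀ ℕ))
    (p : Fin (a + 1) → MvPolynomial (Fin n) ℂ) (hp : ∀ c, (p c).support ⊆ A)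
    (hind : ∀ (e : ℕ) (P : MvPolynomial (Fin (a + 1)) ℂ), P.IsHomogeneous e →
      MvPolynomial.aeval p P = 0 → P = 0) :
    ∃ χ : Fin (a + 1) → Fin n →₀ ℕ, (∀ c, χ c ∈ A) ∧
      AffineIndependent ℚ (fun c => fun l => (χ c l : ℚ)) := by
  classical
  let v : (Fin n →₀ ℕ) → (Fin n → ℚ) := fun χ l => (χ l : ℚ)
  have hv : Function.Injective v := by
    intro χ χ' h
    ext l
    have h1 : (χ l : ℚ) = (χ' l : ℚ) := congrFun h l
    exact_mod_cast h1
  obtain ⟨t, htA, htspan, htind⟩ := exists_affineIndependent ℚ (Fin n → ℚ) (v '' (A : Set _))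
  have htfin : t.Finite := (A.finite_toSet.image v).subset htA
  have : Fintype t := htfin.fintype
  by_cases hcard : a + 1 ≤ Fintype.card t
  · -- enough affinely independent exponents
    obtain ⟨f⟩ : Nonempty (Fin (a + 1) ↪ t) := by
      rw [← Fintype.card_fin (a + 1)] at hcard
      exact Function.Embedding.nonempty_of_card_le hcard
    have h1 : ∀ c, ∃ χ ∈ A, v χ = (f c).1 := fun c => by
      obtain ⟨χ, hχ, h⟩ := htA (f c).2
      exact ⟨χ, hχ, h⟩
    choose χ hχA hχ using h1
    refine ⟨χ, hχA, ?_⟩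
    have h2 := htind.comp_embedding f
    have h3 : (fun c => fun l => (χ c l : ℚ)) = (fun x : t => (x : Fin n → ℚ)) ∘ f := by
      funext c
      exact hχ c
    rw [h3]
    exact h2
  · exfalso
    push Not at hcard
    -- the exponents of the basis
    let t' : Set (Fin n →₀ ℕ) := v ⁻¹' t
    have ht'fin : t'.Finite := htfin.preimage hv.injOn
    have : Fintype t' := ht'fin.fintype
    have hcard' : Fintype.card t' ≤ Fintype.card t :=
      Fintype.card_le_of_injective (fun x : t' => (⟨v x.1, x.2⟩ : t)) fun x y h => by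
        apply Subtype.ext
        exact hv (congrArg Subtype.val h)
    -- all exponents are algebraic
    have halg : ∀ χ ∈ A, IsAlgebraic (Algebra.adjoin ℂ (tm '' t')) (tm χ) := by
      intro χ hχ
      have h1 : v χ ∈ affineSpan ℚ t := by
        rw [htspan]
        exact mem_affineSpan ℚ ⟨χ, hχ, rfl⟩
      have h2 : v χ ∈ affineSpan ℚ (Set.range fun x : t' => v x.1) := by
        have h3 : Set.range (fun x : t' => v x.1) = t := by
          ext x
          constructor
          · rintro ⟨y, rfl⟩
            exact y.2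
          · intro hx
            obtain ⟨y, -, rfl⟩ := htA hx
            exact ⟨⟨y, hx⟩, rfl⟩
        rw [h3]
        exact h1
      obtain ⟨w, hw, hwχ⟩ := eq_affineCombination_of_mem_affineSpan_of_fintype h2
      refine isAlgebraic_tm t' χ w hw fun l => ?_
      rw [Finset.affineCombination_eq_linear_combination _ _ _ hw] at hwχ
      have h3 := congrFun hwχ l
      simp only [Finset.sum_apply, Pi.smul_apply, smul_eq_mul] at h3
      exact h3
    let M := AlgebraicIndependent.matroid ℂ (Polynomial (MvPolynomial (Fin n) ℂ))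
    let P : Fin (a + 1) → Polynomial (MvPolynomial (Fin n) ℂ) := fun c =>
      Polynomial.C (p c) * Polynomial.X
    have hP : AlgebraicIndependent ℂ P := algebraicIndependent_of p hind
    have hPind : M.Indep (Set.range P) := hP.coe_range
    have hPcl : Set.range P ⊆ M.closure (tm '' t') := by
      rintro _ ⟨c, rfl⟩
      rw [AlgebraicIndependent.matroid_closure_eq]
      have h1 : P c = ∑ χ ∈ (p c).support, (p c).coeff χ • tm χ := by
        simp only [P]
        conv_lhs => rw [(p c).as_sum]
        rw [map_sum, Finset.sum_mul]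
        refine Finset.sum_congr rfl fun χ _ => ?_
        unfold tm
        rw [Algebra.smul_def, ← mul_assoc]
        congr 1
        rw [Polynomial.algebraMap_apply, ← Polynomial.C_mul]
        congr 1
        rw [MvPolynomial.algebraMap_eq, MvPolynomial.C_mul_monomial, mul_one]
      rw [h1]
      refine Subalgebra.sum_mem _ fun χ hχ => ?_
      have h2 : (p c).coeff χ • tm χ =
          (algebraMap ℂ (Algebra.adjoin ℂ (tm '' t')) ((p c).coeff χ)) • tm χ := by
        rw [algebraMap_smul]
      rw [h2]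
      exact Subalgebra.smul_mem _ ((Subalgebra.mem_algebraicClosure _ _).2 (halg χ (hp c hχ))) _
    have h1 : M.eRk (Set.range P) ≤ M.eRk (tm '' t') := by
      rw [← M.eRk_closure_eq (tm '' t')]
      exact M.eRk_mono hPcl
    rw [hPind.eRk_eq_encard] at h1
    have h2 : M.eRk (tm '' t') ≤ (a : ℕ∞) := by
      refine (M.eRk_le_encard _).trans ((Set.encard_image_le _ _).trans ?_)
      rw [Set.encard_eq_coe_toFinset_card, Set.toFinset_card]
      exact_mod_cast (by omega : Fintype.card t' ≤ a)
    have h3 : (Set.range P).encard = ((a + 1 : ℕ) : ℕ∞) := by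
      rw [← Set.image_univ, Set.InjOn.encard_image (hP.injective.injOn), Set.encard_univ]
      simp
    rw [h3] at h1
    have h4 := h1.trans h2
    have h5 : a + 1 ≤ a := by exact_mod_cast h4
    omega

end Vale.Agent.P281.ToricBundles
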