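import Vale.Agent.P281.R3.H243.Expand

/-! Sections of line bundles on the base. -/

open Filter Topology

namespace Vale.Agent.P281.ToricBundles

open Vale.Agent.P270 (IsStable)
open Vale.Agent.P270.ToricBundle (prod_zpow_eq)

/-- The holomorphic functions on a connected open set form a domain. -/
theorem eq_zero_of_mul {g : ℕ} {V : Set (Fin g → ℂ)} (hV : IsOpen V) (hc : IsPreconnected V)
    {f h : (Fin g → ℂ) → ℂ} (hf : AnalyticOnNhd ℂ f V) (hh : AnalyticOnNhd ℂ h V)
    (hfh : ∀ z ∈ V, f z * h z = 0) (hne : ∃ z ∈ V, f z ≠ 0) : ∀ z ∈ V, h z = 0 := by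
  obtain ⟨z₁, hz₁, hfz⟩ := hne
  have h1 : ∀ᶠ z in 𝓝 z₁, f z ≠ 0 := ((hf z₁ hz₁).continuousAt).eventually_ne hfz
  have h2 : h =ᶠ[𝓝 z₁] 0 := by
    filter_upwards [h1, hV.mem_nhds hz₁] with z hz hzV
    exact (mul_eq_zero.1 (hfh z hzV)).resolve_left hz
  exact hh.eqOn_zero_of_preconnected_of_eventuallyEq_zero hc hz₁ h2

theorem exists_mul_ne_zero {g : ℕ} {V : Set (Fin g → ℂ)} (hV : IsOpen V) (hc : IsPreconnected V)
    {f h : (Fin g → ℂ) → ℂ} (hf : AnalyticOnNhd ℂ f V) (hh : AnalyticOnNhd ℂ h V)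
    (hf0 : ∃ z ∈ V, f z ≠ 0) (hh0 : ∃ z ∈ V, h z ≠ 0) : ∃ z ∈ V, f z * h z ≠ 0 := by
  by_contra hcon
  push Not at hcon
  obtain ⟨z, hz, hne⟩ := hh0
  exact hne (eq_zero_of_mul hV hc hf hh hcon hf0 z hz)

namespace LB

variable {g : ℕ} {S : Base g}

theorem pow_val (M : LB S) (k : ℕ) (i j : S.I) (z : Fin g → ℂ) :
    (M ^ k).val i j z = M.val i j z ^ k := by
  induction k with
  | zero => simp
  | succ k ih => rw [pow_succ, mul_val, ih, pow_succ]

theorem prod_val {ι : Type*} (A : Finset ι) (M : ι → LB S) (i j : S.I) (z : Fin g → ℂ) :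
    (∏ a ∈ A, M a).val i j z = ∏ a ∈ A, (M a).val i j z := by
  classical
  induction A using Finset.induction_on with
  | empty => simp
  | insert a A ha ih => rw [Finset.prod_insert ha, Finset.prod_insert ha, mul_val, ih]

theorem IsSec.one : IsSec (1 : LB S) fun _ _ => 1 :=
  ⟨fun _ => analyticOnNhd_const, fun i j z _ => by simp⟩

theorem IsSec.mul {M M' : LB S} {f f' : S.I → (Fin g → ℂ) → ℂ} (h : IsSec M f)
    (h' : IsSec M' f') : IsSec (M * M') fun i z => f i z * f' i z := by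
  refine ⟨fun i => (h.1 i).mul (h'.1 i), fun i j z hz => ?_⟩
  beta_reduce
  rw [h.2 i j z hz, h'.2 i j z hz, mul_val]
  ring

theorem IsSec.pow {M : LB S} {f : S.I → (Fin g → ℂ) → ℂ} (h : IsSec M f) (k : ℕ) :
    IsSec (M ^ k) fun i z => f i z ^ k := by
  induction k with
  | zero => simpa using IsSec.one
  | succ k ih =>
    simp only [pow_succ]
    exact ih.mul h

theorem IsSec.prod {ι : Type*} (A : Finset ι) {M : ι → LB S}
    {f : ι → S.I → (Fin g → ℂ) → ℂ} (h : ∀ a ∈ A, IsSec (M a) (f a)) :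
    IsSec (∏ a ∈ A, M a) fun i z => ∏ a ∈ A, f a i z := by
  classical
  induction A using Finset.induction_on with
  | empty => simpa using IsSec.one
  | insert a A ha ih =>
    simp only [Finset.prod_insert ha]
    exact (h a (Finset.mem_insert_self _ _)).mul
      (ih fun i hi => h i (Finset.mem_insert_of_mem hi))

/-- The identity theorem on `S`: a nonzero section is not identically zero on any chart. -/
theorem IsSec.ne_zero_chart {M : LB S} {f : S.I → (Fin g → ℂ) → ℂ} (h : IsSec M f)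
    (hne : ∃ i, ∃ z ∈ S.V i, f i z ≠ 0) (j : S.I) : ∃ z ∈ S.V j, f j z ≠ 0 := by
  obtain ⟨i, hi⟩ := hne
  induction S.connected i j with
  | refl => exact hi
  | @tail b c _ hbc ih =>
    obtain ⟨z, hz, hfz⟩ := ih
    by_contra hcon
    push Not at hcon
    obtain ⟨z₁, hz₁⟩ := hbc
    have h1 : ∀ z ∈ S.W b c, f b z = 0 := by
      intro z hz
      have h2 := h.2 b c z hz
      rw [hcon _ (S.W_subset c b (S.maps b c z hz))] at h2
      exact (mul_eq_zero.1 h2.symm).resolve_left (M.ne_zero b c z)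
    have h2 : f b =ᶠ[𝓝 z₁] 0 := by
      filter_upwards [(S.isOpen_W b c).mem_nhds hz₁] with z hz
      exact h1 z hz
    exact hfz ((h.1 b).eqOn_zero_of_preconnected_of_eventuallyEq_zero
      (S.connected_V b).isPreconnected (S.W_subset b c hz₁) h2 hz)

/-- A product of nonzero sections is nonzero. -/
theorem IsSec.mul_ne_zero {M M' : LB S} {f f' : S.I → (Fin g → ℂ) → ℂ} (h : IsSec M f)
    (h' : IsSec M' f') (hne : ∃ i, ∃ z ∈ S.V i, f i z ≠ 0)
    (hne' : ∃ i, ∃ z ∈ S.V i, f' i z ≠ 0) : ∃ i, ∃ z ∈ S.V i, f i z * f' i z ≠ 0 := by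
  obtain ⟨i⟩ := S.nonempty
  exact ⟨i, exists_mul_ne_zero (S.isOpen_V i) (S.connected_V i).isPreconnected (h.1 i) (h'.1 i)
    (h.ne_zero_chart hne i) (h'.ne_zero_chart hne' i)⟩

theorem IsSec.pow_ne_zero {M : LB S} {f : S.I → (Fin g → ℂ) → ℂ}
    (hne : ∃ i, ∃ z ∈ S.V i, f i z ≠ 0) (k : ℕ) : ∃ i, ∃ z ∈ S.V i, f i z ^ k ≠ 0 := by
  obtain ⟨i, z, hz, h⟩ := hne
  exact ⟨i, z, hz, _root_.pow_ne_zero k h⟩

theorem IsSec.prod_ne_zero {ι : Type*} (A : Finset ι) {M : ι → LB S}
    {f : ι → S.I → (Fin g → ℂ) → ℂ} (h : ∀ a ∈ A, IsSec (M a) (f a))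
    (hne : ∀ a ∈ A, ∃ i, ∃ z ∈ S.V i, f a i z ≠ 0) :
    ∃ i, ∃ z ∈ S.V i, ∏ a ∈ A, f a i z ≠ 0 := by
  classical
  induction A using Finset.induction_on with
  | empty =>
    obtain ⟨i⟩ := S.nonempty
    obtain ⟨z, hz⟩ := (S.connected_V i).nonempty
    exact ⟨i, z, hz, by simp⟩
  | insert a A ha ih =>
    simp only [Finset.prod_insert ha]
    exact (h a (Finset.mem_insert_self _ _)).mul_ne_zero
      (IsSec.prod A fun i hi => h i (Finset.mem_insert_of_mem hi))
      (hne a (Finset.mem_insert_self _ _))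
      (ih (fun i hi => h i (Finset.mem_insert_of_mem hi))
        fun i hi => hne i (Finset.mem_insert_of_mem hi))

end LB

namespace ToricBundle

variable {g n s : ℕ} {S : Base g} {X : ToricBundle S n s}

@[simp] theorem cls_pow (D : X.LineBundle) (k : ℕ) (j : Fin s) :
    cls (D ^ k) j = k * cls D j := by
  simp [cls, Prod.pow_fst, toAdd_pow]

@[simp] theorem cls_mul (D D' : X.LineBundle) (j : Fin s) :
    cls (D * D') j = cls D j + cls D' j := by
  simp [cls, Prod.fst_mul, toAdd_mul]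

/-- A monomial times a section on the base. -/
theorem isSection_monomial (χ : Fin n → ℕ) {R : LB S} {h : S.I → (Fin g → ℂ) → ℂ}
    (hh : LB.IsSec R h) :
    IsSection (X := X) (Multiplicative.ofAdd fun j => ∑ l, (χ l : ℤ) * X.F.deg l j,
      (∏ l, X.L l ^ χ l) * R) fun i y => (∏ l, y.2 l ^ χ l) * h i y.1 := by
  refine ⟨fun i y hy => ?_, fun i c y hy => ?_, fun i j y hy hyW => ?_⟩
  · refine AnalyticAt.mul ?_ ?_
    · refine Finset.analyticAt_fun_prod _ fun l _ => AnalyticAt.pow ?_ _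
      exact ((ContinuousLinearMap.proj (R := ℂ) (φ := fun _ : Fin n => ℂ) l).comp
        (ContinuousLinearMap.snd ℂ (Fin g → ℂ) (Fin n → ℂ))).analyticAt y
    · exact AnalyticAt.comp (f := fun y : (Fin g → ℂ) × (Fin n → ℂ) => y.1) (hh.1 i y.1 hy.1)
        analyticAt_fst
  · simp only [cls, toAdd_ofAdd]
    rw [← mul_assoc]
    congr 1
    simp only [mul_pow, Finset.prod_mul_distrib]
    congr 1
    simp only [← Finset.prod_pow]
    rw [Finset.prod_comm]
    refine Finset.prod_congr rfl fun j _ => ?_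
    have hcj : (c j : ℂ) ≠ 0 := (c j).ne_zero
    rw [← prod_zpow_eq hcj]
    refine Finset.prod_congr rfl fun l _ => ?_
    rw [mul_comm, zpow_mul, zpow_natCast]
  · simp only [LB.mul_val, LB.prod_val, LB.pow_val]
    rw [hh.2 i j y.1 hyW]
    simp only [mul_pow, Finset.prod_mul_distrib]
    ring

end ToricBundle

end Vale.Agent.P281.ToricBundles
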