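import Vale.Agent.P281.R3.H243.Expand

/-! The log canonical condition, tested on polydiscs of monomial shape. -/

open MeasureTheory Filter Topology
open scoped ENNReal

namespace Vale.Agent.P281.ToricBundles

open Vale.Agent.P270 (IsStable)

namespace ToricBundle

section Polydisc

variable {g n : ℕ}

/-- The test polydiscs. -/
def QQ (a : Fin g → ℂ) (w : Fin n → ℝ) (ρ : ℝ) (N : ℕ) : Set ((Fin g → ℂ) × (Fin n → ℂ)) :=
  open Classical in
  (Set.univ.pi fun k : Fin g => Metric.closedBall (a k) ρ) ×ˢ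
    (Set.univ.pi fun i => if w i = 0 then Metric.closedBall (1 : ℂ) ρ
      else Metric.closedBall 0 (ρ * (1 / 2 : ℝ) ^ (N * w i)))

theorem measurableSet_QQ (a : Fin g → ℂ) (w : Fin n → ℝ) (ρ : ℝ) (N : ℕ) : MeasurableSet (QQ a w ρ N) := by
  classical
  refine MeasurableSet.prod (MeasurableSet.univ_pi fun _ => measurableSet_closedBall)
    (MeasurableSet.univ_pi fun i => ?_)
  split_ifs <;> exact measurableSet_closedBall

theorem volume_QQ (a : Fin g → ℂ) (w : Fin n → ℝ) {ρ : ℝ} (hρ : 0 < ρ) : ∃ C : ℝ, 0 < C ∧ ∀ N : ℕ,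
    volume (QQ a w ρ N) = ENNReal.ofReal (C * (1 / 2 : ℝ) ^ (2 * N * ∑ i, w i)) := by
  classical
  refine ⟨(ρ ^ 2 * Real.pi) ^ g * (ρ ^ 2 * Real.pi) ^ n, by positivity, fun N => ?_⟩
  have hball : ∀ (a : ℂ) (ρ : ℝ), 0 ≤ ρ →
      volume (Metric.closedBall a ρ) = ENNReal.ofReal (ρ ^ 2 * Real.pi) := by
    intro a ρ hρ
    rw [Complex.volume_closedBall, ENNReal.ofReal_mul (by positivity), ENNReal.ofReal_pow hρ]
    congr 1
    rw [← NNReal.coe_real_pi, ENNReal.ofReal_coe_nnreal]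
  unfold QQ
  rw [Measure.volume_eq_prod, Measure.prod_prod, volume_pi_pi, volume_pi_pi]
  have h1 : ∏ k : Fin g, volume (Metric.closedBall (a k) ρ) =
      ENNReal.ofReal ((ρ ^ 2 * Real.pi) ^ g) := by
    simp only [hball _ _ hρ.le]
    simp only [Finset.prod_const, Finset.card_univ, Fintype.card_fin]
    rw [ENNReal.ofReal_pow (by positivity)]
  have h2 : ∏ i : Fin n, volume (if w i = 0 then Metric.closedBall (1 : ℂ) ρ
      else Metric.closedBall 0 (ρ * (1 / 2 : ℝ) ^ (N * w i)))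
      = ENNReal.ofReal ((ρ ^ 2 * Real.pi) ^ n * (1 / 2 : ℝ) ^ (2 * N * ∑ i, w i)) := by
    have h3 : ∀ i : Fin n, volume (if w i = 0 then Metric.closedBall (1 : ℂ) ρ
      else Metric.closedBall 0 (ρ * (1 / 2 : ℝ) ^ (N * w i)))
      = ENNReal.ofReal ((ρ ^ 2 * Real.pi) * (1 / 2 : ℝ) ^ (2 * N * w i)) := by
      intro i
      split_ifs with h
      · rw [hball _ _ hρ.le, h, mul_zero, Real.rpow_zero, mul_one]
      · rw [hball _ _ (by positivity)]
        congr 1
        rw [mul_pow, ← Real.rpow_natCast ((1 / 2 : ℝ) ^ (N * w i)), ← Real.rpow_mul (by norm_num)]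
        have : (N : ℝ) * w i * ((2 : ℕ) : ℝ) = 2 * N * w i := by push_cast; ring
        rw [this]
        ring
    rw [Finset.prod_congr rfl fun i _ => h3 i, ← ENNReal.ofReal_prod_of_nonneg]
    · congr 1
      rw [Finset.prod_mul_distrib, Finset.prod_const, Finset.card_univ, Fintype.card_fin,
        ← Real.rpow_sum_of_pos (by norm_num), ← Finset.mul_sum]
    · intro i _
      positivity
  rw [h1, h2, ← ENNReal.ofReal_mul (by positivity)]
  congr 1
  ring

end Polydisc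

variable {g n s : ℕ} {S : Base g} {X : ToricBundle S n s}

/-- The expansion of the boundary is not empty. -/
theorem supp_nonempty {B : X.Boundary} (E : Expansion B.bdl B.sec) : E.supp.Nonempty := by
  obtain ⟨i, y, hy, hne⟩ := B.ne_zero
  rw [E.eval i y hy] at hne
  obtain ⟨χ, hχ, -⟩ := Finset.exists_ne_zero_of_sum_ne_zero hne
  exact ⟨χ, hχ⟩

/-- The log canonical inequality for the toric valuation with weights `w`. -/
theorem lc_ineq {B : X.Boundary} (hB : B.IsLogCanonical) (E : Expansion B.bdl B.sec)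
    (w : Fin n → ℝ) (hw : ∀ i, 0 ≤ w i)
    (hst : IsStable X.F.deg X.F.amp fun i => if w i = 0 then 1 else 0) :
    ∃ χ ∈ E.supp, ∑ i, w i * χ i ≤ B.m * ∑ i, w i := by
  classical
  by_contra hcon0
  push Not at hcon0
  set W := ∑ i, w i with hW
  have hm0 : (0 : ℝ) < B.m := by exact_mod_cast B.m_pos
  obtain ⟨χ₁, hχ₁⟩ := supp_nonempty E
  have hWpos : 0 < W := by
    rcases (Finset.sum_nonneg fun i (_ : i ∈ Finset.univ) => hw i).eq_or_lt with h | h
    · exfalso
      have h1 := (Finset.sum_eq_zero_iff_of_nonneg fun i _ => hw i).1 h.symm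
      have h2 := hcon0 χ₁ hχ₁
      have h3 : ∑ i, w i * (χ₁ i : ℝ) = 0 := Finset.sum_eq_zero fun i hi => by
        rw [h1 i hi, zero_mul]
      rw [h3, hW, ← h, mul_zero] at h2
      exact lt_irrefl _ h2
    · exact h
  obtain ⟨χ₀, hχ₀, hmin⟩ := Finset.exists_min_image E.supp (fun χ => ∑ i, w i * (χ i : ℝ))
    ⟨χ₁, hχ₁⟩
  set q := ∑ i, w i * (χ₀ i : ℝ) with hq
  have hqm : B.m * W < q := hcon0 χ₀ hχ₀
  have hq0 : 0 < q := lt_trans (mul_pos hm0 hWpos) hqm
  -- the multiple of the boundary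
  set c : ℝ := B.m * W / q with hc
  have hc0 : 0 < c := div_pos (mul_pos hm0 hWpos) hq0
  have hc1 : c < 1 := (div_lt_one hq0).2 hqm
  set m : ℝ := B.m / c with hm
  have hmpos : 0 < m := div_pos hm0 hc0
  have hmW : m * W = q := by
    rw [hm, hc]
    field_simp
  have hcon : ∀ χ ∈ E.supp, m * W ≤ ∑ i, w i * (χ i : ℝ) := fun χ hχ => by
    rw [hmW]
    exact hmin χ hχ
  have hmc : 2 * c / (B.m : ℝ) = 2 / m := by
    rw [hm]
    field_simp
  set a : ℝ := 2 / m with ha
  have ha0 : 0 < a := by positivity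
  have haW : a * (m * W) = 2 * W := by
    rw [ha]
    field_simp
  -- the centre and the neighbourhood
  obtain ⟨i₀⟩ := S.nonempty
  obtain ⟨z₀, hz₀⟩ := (S.connected_V i₀).nonempty
  let t₀ : Fin n → ℂ := fun i => if w i = 0 then 1 else 0
  obtain ⟨U, hU, hUfin⟩ := hB c hc0 hc1 i₀ (z₀, t₀) ⟨hz₀, hst⟩
  obtain ⟨ρ₁, hρ₁, hball₁⟩ := Metric.nhds_basis_closedBall.mem_iff.1 hU
  obtain ⟨ρ₂, hρ₂, hball₂⟩ := Metric.nhds_basis_closedBall.mem_iff.1
    ((S.isOpen_V i₀).mem_nhds hz₀)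
  set ρ' : ℝ := min ρ₁ ρ₂ with hρ'def
  have hρ' : 0 < ρ' := lt_min hρ₁ hρ₂
  have hball : Metric.closedBall (z₀, t₀) ρ' ⊆ U :=
    (Metric.closedBall_subset_closedBall (min_le_left _ _)).trans hball₁
  have hballV : Metric.closedBall z₀ ρ' ⊆ S.V i₀ :=
    (Metric.closedBall_subset_closedBall (min_le_right _ _)).trans hball₂
  set ρ : ℝ := min ρ' 1 with hρdef
  have hρ : 0 < ρ := lt_min hρ' one_pos
  have hρ1 : ρ ≤ 1 := min_le_right _ _
  have hδ : ∀ (N : ℕ) i, (1 / 2 : ℝ) ^ (N * w i) ≤ 1 := by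
    intro N i
    exact Real.rpow_le_one (by norm_num) (by norm_num) (mul_nonneg (Nat.cast_nonneg N) (hw i))
  have hQU : ∀ N, QQ z₀ w ρ N ⊆ U := by
    intro N y hy
    apply hball
    obtain ⟨h1, h2⟩ := hy
    rw [Metric.mem_closedBall, Prod.dist_eq, max_le_iff]
    constructor
    · rw [dist_pi_le_iff hρ'.le]
      intro k
      have := h1 k (Set.mem_univ k)
      rw [Metric.mem_closedBall] at this
      exact this.trans (min_le_left _ _)
    · rw [dist_pi_le_iff hρ'.le]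
      intro i
      have := h2 i (Set.mem_univ i)
      beta_reduce at this
      simp only [t₀]
      split_ifs at this ⊢ with h
      · rw [Metric.mem_closedBall] at this
        exact this.trans (min_le_left _ _)
      · rw [Metric.mem_closedBall] at this
        refine this.trans ?_
        calc ρ * (1 / 2 : ℝ) ^ (N * w i) ≤ ρ * 1 := by gcongr; exact hδ N i
          _ = ρ := mul_one _
          _ ≤ ρ' := min_le_left _ _
  obtain ⟨C, hC, hvol⟩ := volume_QQ z₀ w hρ
  -- the points of the test sets are stable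
  have hQdom : ∀ N, QQ z₀ w (ρ / 2) N ⊆ X.dom i₀ := by
    intro N y hy
    refine ⟨hballV ?_, hst.mono fun i hi => ?_⟩
    · rw [Metric.mem_closedBall, dist_pi_le_iff hρ'.le]
      intro k
      have := hy.1 k (Set.mem_univ k)
      rw [Metric.mem_closedBall] at this
      have h1 : ρ ≤ ρ' := min_le_left _ _
      linarith
    have := hy.2 i (Set.mem_univ i)
    beta_reduce at this
    by_contra h
    have hwi : w i = 0 := by
      by_contra h'
      simp [h'] at h
    rw [if_pos hwi, hi, Metric.mem_closedBall, dist_eq_norm, zero_sub, norm_neg, norm_one] at this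
    linarith
  obtain ⟨C', hC', hvol'⟩ := volume_QQ z₀ w (ρ := ρ / 2) (by positivity)
  have hQQ : ∀ N, QQ z₀ w (ρ / 2) N ⊆ QQ z₀ w ρ N := by
    intro N
    refine Set.prod_mono (Set.pi_mono fun _ _ => Metric.closedBall_subset_closedBall (by linarith))
      (Set.pi_mono fun i _ => ?_)
    split_ifs
    · exact Metric.closedBall_subset_closedBall (by linarith)
    · refine Metric.closedBall_subset_closedBall ?_
      gcongr
      linarith
  have hQU' : ∀ N, QQ z₀ w (ρ / 2) N ⊆ U := fun N => (hQQ N).trans (hQU N)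
  -- bound for the coefficients
  obtain ⟨M, hM⟩ : ∃ M : (Fin n →₀ ℕ) → ℝ, ∀ χ,
      ∀ z ∈ Metric.closedBall z₀ ρ', ‖E.coef χ i₀ z‖ ≤ M χ := by
    have hcpt : IsCompact (Metric.closedBall z₀ ρ') := isCompact_closedBall _ _
    have : ∀ χ, ∃ M : ℝ, ∀ z ∈ Metric.closedBall z₀ ρ', ‖E.coef χ i₀ z‖ ≤ M := fun χ =>
      hcpt.exists_bound_of_continuousOn ((E.holo χ i₀).continuousOn.mono hballV)
    choose M hM using this
    exact ⟨M, hM⟩
  let K : ℝ := (∑ χ ∈ E.supp, |M χ| * 2 ^ (∑ i, χ i)) + 1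
  have hK : 0 < K := by
    have : 0 ≤ ∑ χ ∈ E.supp, |M χ| * (2 : ℝ) ^ (∑ i, χ i) :=
      Finset.sum_nonneg fun _ _ => by positivity
    simp only [K]
    linarith
  have hsec : ∀ N : ℕ, ∀ y ∈ QQ z₀ w (ρ / 2) N,
      ‖B.sec i₀ y‖ ≤ K * (1 / 2 : ℝ) ^ (N * (m * W)) := by
    intro N y hy
    have hz : y.1 ∈ Metric.closedBall z₀ ρ' := by
      rw [Metric.mem_closedBall, dist_pi_le_iff hρ'.le]
      intro k
      have := hy.1 k (Set.mem_univ k)
      rw [Metric.mem_closedBall] at this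
      have h1 : ρ ≤ ρ' := min_le_left _ _
      linarith
    have ht' : ∀ i, ‖y.2 i‖ ≤ 2 * (1 / 2 : ℝ) ^ (N * w i) := by
      intro i
      have h1 := hy.2 i (Set.mem_univ i)
      simp only at h1
      split_ifs at h1 with h
      · rw [h, mul_zero, Real.rpow_zero, mul_one]
        rw [Metric.mem_closedBall, dist_eq_norm] at h1
        calc ‖y.2 i‖ = ‖(y.2 i - 1) + 1‖ := by ring_nf
          _ ≤ ‖y.2 i - 1‖ + ‖(1 : ℂ)‖ := norm_add_le _ _
          _ ≤ 1 + 1 := by
            rw [norm_one]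
            linarith
          _ = 2 := by norm_num
      · rw [mem_closedBall_zero_iff] at h1
        refine h1.trans ?_
        gcongr
        linarith
    have hterm : ∀ χ ∈ E.supp, ‖E.coef χ i₀ y.1 * ∏ i, y.2 i ^ χ i‖ ≤
        |M χ| * 2 ^ (∑ i, χ i) * (1 / 2 : ℝ) ^ (N * (m * W)) := by
      intro χ hχ
      have h1 := hcon χ hχ
      rw [norm_mul, norm_prod]
      have h2 : ∏ i, ‖y.2 i ^ χ i‖ ≤ ∏ i, (2 * (1 / 2 : ℝ) ^ (N * w i)) ^ χ i := by
        refine Finset.prod_le_prod (fun i _ => norm_nonneg _) fun i _ => ?_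
        rw [norm_pow]
        exact pow_le_pow_left₀ (norm_nonneg _) (ht' i) _
      have h3 : ∏ i, (2 * (1 / 2 : ℝ) ^ (N * w i)) ^ χ i
          = 2 ^ (∑ i, χ i) * (1 / 2 : ℝ) ^ (N * ∑ i, w i * χ i) := by
        simp only [mul_pow, Finset.prod_mul_distrib, Finset.prod_pow_eq_pow_sum]
        congr 1
        rw [Finset.mul_sum, Real.rpow_sum_of_pos (by norm_num)]
        refine Finset.prod_congr rfl fun i _ => ?_
        rw [← Real.rpow_natCast, ← Real.rpow_mul (by norm_num), mul_assoc]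
      have h4 : (1 / 2 : ℝ) ^ (N * ∑ i, w i * χ i) ≤ (1 / 2 : ℝ) ^ (N * (m * W)) := by
        apply Real.rpow_le_rpow_of_exponent_ge (by norm_num) (by norm_num)
        exact mul_le_mul_of_nonneg_left h1 (Nat.cast_nonneg N)
      calc ‖E.coef χ i₀ y.1‖ * ∏ i, ‖y.2 i ^ χ i‖ ≤
          |M χ| * (2 ^ (∑ i, χ i) * (1 / 2 : ℝ) ^ (N * (m * W))) := by
            gcongr
            · exact (hM χ y.1 hz).trans (le_abs_self _)
            · rw [h3] at h2
              exact h2.trans (by gcongr)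
        _ = _ := by ring
    rw [E.eval i₀ y (hQdom N hy)]
    calc ‖∑ χ ∈ E.supp, E.coef χ i₀ y.1 * ∏ i, y.2 i ^ χ i‖
        ≤ ∑ χ ∈ E.supp, ‖E.coef χ i₀ y.1 * ∏ i, y.2 i ^ χ i‖ := norm_sum_le _ _
      _ ≤ ∑ χ ∈ E.supp, (|M χ| * 2 ^ (∑ i, χ i) * (1 / 2 : ℝ) ^ (N * (m * W))) :=
          Finset.sum_le_sum hterm
      _ = (∑ χ ∈ E.supp, |M χ| * 2 ^ (∑ i, χ i)) * (1 / 2 : ℝ) ^ (N * (m * W)) := by
          rw [Finset.sum_mul]
      _ ≤ K * (1 / 2 : ℝ) ^ (N * (m * W)) := by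
          gcongr
          simp only [K]
          linarith
  -- lower bound of the integrals
  have hlow : ∀ N, ENNReal.ofReal (K ^ (-a) * C') ≤
      ∫⁻ y in QQ z₀ w (ρ / 2) N, ‖B.sec i₀ y‖ₑ ^ (-(2 * c / B.m : ℝ)) := by
    intro N
    have hpt : ∀ y ∈ QQ z₀ w (ρ / 2) N, ENNReal.ofReal ((K * (1 / 2 : ℝ) ^ (N * (m * W))) ^ (-a)) ≤
        ‖B.sec i₀ y‖ₑ ^ (-(2 * c / B.m : ℝ)) := by
      intro y hy
      rw [hmc, ← ENNReal.ofReal_rpow_of_pos (by positivity), ENNReal.rpow_neg,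
        ENNReal.rpow_neg]
      apply ENNReal.inv_le_inv.2
      apply ENNReal.rpow_le_rpow _ ha0.le
      rw [← ofReal_norm]
      exact ENNReal.ofReal_le_ofReal (hsec N y hy)
    calc ENNReal.ofReal (K ^ (-a) * C')
        ≤ ENNReal.ofReal ((K * (1 / 2 : ℝ) ^ (N * (m * W))) ^ (-a)) *
          ENNReal.ofReal (C' * (1 / 2 : ℝ) ^ (2 * N * W)) := by
          rw [← ENNReal.ofReal_mul (by positivity)]
          apply ENNReal.ofReal_le_ofReal
          rw [Real.mul_rpow hK.le (by positivity), ← Real.rpow_mul (by norm_num)]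
          have h1 : (1 : ℝ) = (1 / 2 : ℝ) ^ ((N : ℝ) * (m * W) * -a) *
              (1 / 2 : ℝ) ^ (2 * (N : ℝ) * W) := by
            rw [← Real.rpow_add (by norm_num)]
            have : (N : ℝ) * (m * W) * -a + 2 * (N : ℝ) * W = 0 := by
              linear_combination (-(N : ℝ)) * haW
            rw [this, Real.rpow_zero]
          apply le_of_eq
          calc K ^ (-a) * C' = K ^ (-a) * C' * 1 := by ring
            _ = K ^ (-a) * C' * ((1 / 2 : ℝ) ^ ((N : ℝ) * (m * W) * -a) *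
                (1 / 2 : ℝ) ^ (2 * (N : ℝ) * W)) := by rw [← h1]
            _ = _ := by ring
      _ = ENNReal.ofReal ((K * (1 / 2 : ℝ) ^ (N * (m * W))) ^ (-a)) *
          volume (QQ z₀ w (ρ / 2) N) := by rw [hvol' N]
      _ = ∫⁻ _ in QQ z₀ w (ρ / 2) N, ENNReal.ofReal ((K * (1 / 2 : ℝ) ^ (N * (m * W))) ^ (-a)) := by
          rw [setLIntegral_const]
      _ ≤ _ := setLIntegral_mono' (measurableSet_QQ _ _ _ _) hpt
  -- the volumes tend to zero
  have htend : Tendsto (fun N => (volume.restrict U) (QQ z₀ w (ρ / 2) N)) atTop (𝓝 0) := by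
    have h1 : ∀ N, (volume.restrict U) (QQ z₀ w (ρ / 2) N) =
        ENNReal.ofReal (C' * ((1 / 2 : ℝ) ^ (2 * W)) ^ N) := by
      intro N
      rw [Measure.restrict_eq_self _ (hQU' N), hvol' N, ← Real.rpow_natCast,
        ← Real.rpow_mul (by norm_num)]
      congr 3
      ring
    simp only [h1]
    rw [← ENNReal.ofReal_zero]
    apply ENNReal.tendsto_ofReal
    have h2 : Tendsto (fun N : ℕ => ((1 / 2 : ℝ) ^ (2 * W)) ^ N) atTop (𝓝 0) := by
      apply tendsto_pow_atTop_nhds_zero_of_lt_one (by positivity)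
      exact Real.rpow_lt_one (by norm_num) (by norm_num) (by positivity)
    simpa using h2.const_mul C'
  have hlim := tendsto_setLIntegral_zero hUfin.ne (s := fun N => QQ z₀ w (ρ / 2) N) htend
  have hlim' : Tendsto (fun N => ∫⁻ y in QQ z₀ w (ρ / 2) N, ‖B.sec i₀ y‖ₑ ^ (-(2 * c / B.m : ℝ))) atTop
      (𝓝 0) := by
    refine hlim.congr fun N => ?_
    rw [Measure.restrict_restrict_of_subset (hQU' N)]
  have hle := ge_of_tendsto' hlim' hlow
  have hpos : 0 < ENNReal.ofReal (K ^ (-a) * C') := ENNReal.ofReal_pos.2 (by positivity)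
  exact absurd hle (not_le.2 hpos)

end ToricBundle

end Vale.Agent.P281.ToricBundles
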