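import Vale.Agent.P285.R3.H243.Cone
import Vale.Agent.P281.R3.H243.Lc
import Vale.Agent.P281.R3.H243.BaseSec

/-! The log canonical condition puts `m (1, ..., 1) + (effective)` into the Newton polytope of the
boundary; the sections on `S` which belong to the monomials of `K_F + Δ|F`. -/

open Filter Topology

namespace Vale.Agent.P281.ToricBundles

open Vale.Agent.P270 (IsStable)
open Vale.Agent.P285.ToricOverTori (farkas lp_duality isStable_iff_rat exists_clear_den)
open LB (IsSec IsSec.pow IsSec.prod IsSec.pow_ne_zero IsSec.prod_ne_zero)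

namespace ToricBundle

variable {g n s : ℕ} {S : Base g} {X : ToricBundle S n s}

/-- Every point `p` of degree `cls B.bdl` with all coordinates at least `m` is in the Newton
polytope of the boundary. -/
theorem hull {B : X.Boundary} (hB : B.IsLogCanonical) (E : Expansion B.bdl B.sec)
    (p : Fin n → ℚ) (hp : ∀ i, (B.m : ℚ) ≤ p i)
    (hdeg : ∀ j, ∑ i, p i * (X.F.deg i j : ℚ) = cls B.bdl j) :
    ∃ l : E.supp → ℚ, (∀ χ, 0 ≤ l χ) ∧ ∑ χ, l χ = 1 ∧ ∀ i, ∑ χ, l χ * (χ.1 i : ℚ) = p i := by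
  classical
  obtain ⟨l, hl, hb⟩ := farkas
    (fun (χ : E.supp) => (Sum.elim (fun i => (χ.1 i : ℚ)) fun _ => 1 : Fin n ⊕ Unit → ℚ))
    (Sum.elim (fun i => p i) fun _ => 1) (by
      intro y hy
      set ν : Fin n → ℚ := fun i => y (Sum.inl i) with hν
      set τ : ℚ := y (Sum.inr ()) with hτ
      have hy' : ∀ χ ∈ E.supp, 0 ≤ ∑ i, ν i * (χ i : ℚ) + τ := by
        intro χ hχ
        have := hy ⟨χ, hχ⟩
        simpa [Fintype.sum_sum_type] using this
      have hgoal : ∑ j, y j * (Sum.elim (fun i => p i) (fun _ => 1) : Fin n ⊕ Unit → ℚ) j =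
          ∑ i, ν i * p i + τ := by
        simp [Fintype.sum_sum_type, ν, τ]
      rw [hgoal]
      -- the linear program
      obtain ⟨w, hw⟩ := X.F.projective
      obtain ⟨t, ht⟩ := X.F.nonempty
      obtain ⟨x0, hx0, hx0d, -⟩ := isStable_iff_rat.1 ht
      obtain ⟨x, c, hx, hxd, hν', hcs⟩ := lp_duality (deg := fun i j => (X.F.deg i j : ℚ))
        (amp := fun j => (X.F.amp j : ℚ))
        ⟨fun j => w j, fun i => by
          have h0 : (0 : ℚ) < ∑ j, (w j : ℚ) * (X.F.deg i j : ℚ) := by exact_mod_cast hw i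
          exact h0⟩ ⟨x0, hx0, hx0d⟩ ν
      set ν' : Fin n → ℚ := fun i => ν i + ∑ j, c j * (X.F.deg i j : ℚ) with hν'def
      -- the centre is stable
      have hst : IsStable X.F.deg X.F.amp
          (fun i => if ((ν' i : ℚ) : ℝ) = 0 then (1 : ℂ) else 0) := by
        rw [isStable_iff_rat]
        refine ⟨x, hx, hxd, fun i hi => ?_⟩
        have h1 : ν' i ≠ 0 := by
          intro h0
          rw [h0] at hi
          simp at hi
        rcases mul_eq_zero.1 (hcs i) with h | h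
        · exact h
        · exact absurd h h1
      obtain ⟨χ, hχ, hle⟩ := lc_ineq hB E (fun i => ((ν' i : ℚ) : ℝ))
        (fun i => by exact_mod_cast hν' i) hst
      have hle' : ∑ i, ν' i * (χ i : ℚ) ≤ B.m * ∑ i, ν' i := by exact_mod_cast hle
      have hmp : (B.m : ℚ) * ∑ i, ν' i ≤ ∑ i, ν' i * p i := by
        rw [Finset.mul_sum]
        refine Finset.sum_le_sum fun i _ => ?_
        rw [mul_comm]
        exact mul_le_mul_of_nonneg_left (hp i) (hν' i)
      have hdegp : ∑ i, ν' i * p i = ∑ i, ν i * p i + ∑ j, c j * (cls B.bdl j : ℚ) := by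
        simp only [hν'def, add_mul, Finset.sum_add_distrib]
        congr 1
        simp only [← hdeg, Finset.mul_sum, Finset.sum_mul]
        rw [Finset.sum_comm]
        refine Finset.sum_congr rfl fun j _ => Finset.sum_congr rfl fun i _ => by ring
      have hdegχ : ∑ i, ν' i * (χ i : ℚ) =
          ∑ i, ν i * (χ i : ℚ) + ∑ j, c j * (cls B.bdl j : ℚ) := by
        have h1 : ∀ j, (cls B.bdl j : ℚ) = ∑ i, (χ i : ℚ) * (X.F.deg i j : ℚ) := by
          intro j
          rw [← E.degree χ hχ j]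
          push_cast
          rfl
        simp only [hν'def, add_mul, Finset.sum_add_distrib]
        congr 1
        simp only [h1, Finset.mul_sum, Finset.sum_mul]
        rw [Finset.sum_comm]
        refine Finset.sum_congr rfl fun j _ => Finset.sum_congr rfl fun i _ => by ring
      have h1 := hy' χ hχ
      linarith)
  refine ⟨l, hl, ?_, fun i => ?_⟩
  · have := hb (Sum.inr ())
    simpa using this
  · have := hb (Sum.inl i)
    simpa using this

theorem cls_logCanonical (B : X.Boundary) (K : LB S) (j : Fin s) :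
    cls (B.logCanonical K) j = -(B.m * ∑ i, X.F.deg i j) + cls B.bdl j := by
  unfold Boundary.logCanonical
  rw [cls_mul, cls_pow]
  have : cls (X.canonical K) j = -∑ i, X.F.deg i j := rfl
  rw [this]
  ring

/-- The expansion of `θ σ'`. -/
def Expansion.mulBase {D' D : X.LineBundle} {Θ : LB S} (hD : D = D' * (1, Θ))
    {θ : S.I → (Fin g → ℂ) → ℂ} (hθ : IsSec Θ θ) (hθ0 : ∃ i, ∃ z ∈ S.V i, θ i z ≠ 0)
    {σ' f : S.I → (Fin g → ℂ) × (Fin n → ℂ) → ℂ} (E : Expansion D' σ')
    (hf : ∀ i, ∀ y ∈ X.dom i, f i y = θ i y.1 * σ' i y) : Expansion D f where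
  supp := E.supp
  coef := fun χ i z => θ i z * E.coef χ i z
  holo := fun χ i => (hθ.1 i).mul (E.holo χ i)
  ne_zero := fun χ hχ => by
    obtain ⟨i, z, hz, h⟩ := E.ne_zero χ hχ
    exact ⟨i, exists_mul_ne_zero (S.isOpen_V i) (S.connected_V i).isPreconnected (hθ.1 i)
      (E.holo χ i) (hθ.ne_zero_chart hθ0 i) ⟨z, hz, h⟩⟩
  degree := fun χ hχ j => by
    rw [E.degree χ hχ j, hD, cls_mul]
    simp [cls]
  eval := fun i y hy => by
    rw [hf i y hy, E.eval i y hy, Finset.mul_sum]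
    refine Finset.sum_congr rfl fun χ _ => by ring
  equivar := fun χ hχ i j z hz => by
    have h1 := E.equivar χ hχ i j z hz
    rw [hθ.2 i j z hz, hD, Prod.snd_mul, LB.mul_val]
    linear_combination (Θ.val i j z * θ i z) * h1

/-- A monomial of degree `k m (K_F + Δ|F)` belongs to a nonzero section on `S` of the line bundle
which is needed. -/
theorem exists_coeff {B : X.Boundary} (hB : B.IsLogCanonical) {K Θ : LB S} {D' : X.LineBundle}
    (hD : B.bdl = D' * (1, Θ)) {θ : S.I → (Fin g → ℂ) → ℂ} (hθ : IsSec Θ θ)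
    {σ' : S.I → (Fin g → ℂ) × (Fin n → ℂ) → ℂ} (hσ' : IsSection D' σ')
    (hf : ∀ i, ∀ y ∈ X.dom i, B.sec i y = θ i y.1 * σ' i y) {k : ℕ} (hk : 0 < k)
    {χ' : Fin n → ℕ}
    (hχ' : ∀ j, ∑ i, (χ' i : ℤ) * X.F.deg i j = k * cls (B.logCanonical K) j) :
    ∃ q : ℕ, 0 < q ∧ ∃ (R : LB S) (h : S.I → (Fin g → ℂ) → ℂ), IsSec R h ∧
      (∃ i, ∃ z ∈ S.V i, h i z ≠ 0) ∧
      (∏ l, X.L l ^ (q * χ' l)) * R * (K ^ B.m * Θ) ^ (k * q) =
        (B.logCanonical K).2 ^ (k * q) := by
  classical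
  have hθ0 : ∃ i, ∃ z ∈ S.V i, θ i z ≠ 0 := by
    obtain ⟨i, y, hy, hne⟩ := B.ne_zero
    rw [hf i y hy] at hne
    exact ⟨i, y.1, hy.1, left_ne_zero_of_mul hne⟩
  obtain ⟨E'⟩ := exists_expansion hσ'
  have hk' : (k : ℚ) ≠ 0 := by exact_mod_cast hk.ne'
  obtain ⟨l, hl, hsum, hl'⟩ := hull hB (E'.mulBase hD hθ hθ0 hf)
    (fun i => (χ' i : ℚ) / k + B.m)
    (fun i => by
      have : (0 : ℚ) ≤ (χ' i : ℚ) / k := by positivity
      linarith)
    (fun j => by
      have h1 : ∑ i, (χ' i : ℚ) * (X.F.deg i j : ℚ) = k * cls (B.logCanonical K) j := by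
        exact_mod_cast hχ' j
      have h2 : (cls (B.logCanonical K) j : ℚ) =
          -(B.m * ∑ i, (X.F.deg i j : ℚ)) + cls B.bdl j := by
        exact_mod_cast cls_logCanonical B K j
      have h3 : ∑ i, ((χ' i : ℚ) / k + B.m) * (X.F.deg i j : ℚ) =
          (∑ i, (χ' i : ℚ) * (X.F.deg i j : ℚ)) / k + B.m * ∑ i, (X.F.deg i j : ℚ) := by
        rw [Finset.sum_div, Finset.mul_sum, ← Finset.sum_add_distrib]
        refine Finset.sum_congr rfl fun i _ => by ring
      rw [h3, h1, h2]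
      field_simp
      ring)
  change E'.supp → ℚ at l
  obtain ⟨q, a, hq, ha⟩ := exists_clear_den l hl
  have hsum' : ∑ χ : E'.supp, l χ = 1 := hsum
  have hasum : ∑ χ, a χ = q := by
    have : (∑ χ, (a χ : ℚ)) = q := by
      simp only [ha, ← Finset.mul_sum]
      rw [hsum', mul_one]
    exact_mod_cast this
  have haχ : ∀ i, k * ∑ χ : E'.supp, a χ * χ.1 i = q * χ' i + k * q * B.m := by
    intro i
    have : (k : ℚ) * ∑ χ : E'.supp, (a χ : ℚ) * (χ.1 i : ℚ) = q * χ' i + k * q * B.m := by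
      have h1 : ∑ χ : E'.supp, (a χ : ℚ) * (χ.1 i : ℚ) =
          q * ∑ χ : E'.supp, l χ * (χ.1 i : ℚ) := by
        rw [Finset.mul_sum]
        refine Finset.sum_congr rfl fun χ _ => ?_
        rw [ha]
        ring
      have h2 : ∑ χ : E'.supp, l χ * (χ.1 i : ℚ) = (χ' i : ℚ) / k + B.m := hl' i
      rw [h1, h2]
      field_simp
    exact_mod_cast this
  -- the sections on the base
  have hsec : ∀ χ : E'.supp, IsSec (D'.2 * (∏ i, X.L i ^ χ.1 i)⁻¹) (E'.coef χ.1) := by
    rintro ⟨χ, hχ⟩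
    refine ⟨E'.holo χ, fun i j z hz => ?_⟩
    have h1 := E'.equivar χ hχ i j z hz
    have h3 : ∏ l, (X.L l).val i j z ^ χ l ≠ 0 :=
      Finset.prod_ne_zero_iff.2 fun l _ => pow_ne_zero _ ((X.L l).ne_zero i j z)
    rw [LB.mul_val, LB.inv_val, LB.prod_val]
    simp only [LB.pow_val]
    field_simp
    linear_combination h1
  refine ⟨q, hq, ∏ χ : E'.supp, (D'.2 * (∏ i, X.L i ^ χ.1 i)⁻¹) ^ (k * a χ),
    fun i z => ∏ χ : E'.supp, E'.coef χ.1 i z ^ (k * a χ),
    IsSec.prod Finset.univ fun χ _ => (hsec χ).pow _,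
    IsSec.prod_ne_zero Finset.univ (fun χ _ => (hsec χ).pow _) fun χ _ =>
      IsSec.pow_ne_zero (M := 1) (E'.ne_zero χ.1 χ.2) _, ?_⟩
  have h1 : (B.logCanonical K).2 = (K * (∏ i, X.L i)⁻¹) ^ B.m * (D'.2 * Θ) := by
    unfold Boundary.logCanonical canonical
    rw [hD]
    rfl
  have h2 : ∏ χ : E'.supp, (D'.2 * (∏ i, X.L i ^ χ.1 i)⁻¹) ^ (k * a χ) =
      D'.2 ^ (k * q) * (∏ i, X.L i ^ (q * χ' i + k * q * B.m))⁻¹ := by
    have h3 : ∀ χ : E'.supp, (D'.2 * (∏ i, X.L i ^ χ.1 i)⁻¹) ^ (k * a χ) =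
        D'.2 ^ (k * a χ) * (∏ i, X.L i ^ (k * (a χ * χ.1 i)))⁻¹ := by
      intro χ
      have h6 : ∏ i, X.L i ^ (k * (a χ * χ.1 i)) = (∏ i, X.L i ^ χ.1 i) ^ (k * a χ) := by
        rw [← Finset.prod_pow]
        refine Finset.prod_congr rfl fun i _ => ?_
        rw [← pow_mul]
        congr 1
        ring
      rw [mul_pow, inv_pow, h6]
    simp only [h3]
    rw [Finset.prod_mul_distrib, Finset.prod_inv_distrib, Finset.prod_comm]
    congr 1
    · rw [Finset.prod_pow_eq_pow_sum, ← hasum, Finset.mul_sum]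
    · congr 1
      refine Finset.prod_congr rfl fun i _ => ?_
      rw [Finset.prod_pow_eq_pow_sum]
      congr 1
      rw [← Finset.mul_sum, haχ i]
  rw [h1, h2]
  have h4 : ∏ i, X.L i ^ (q * χ' i + k * q * B.m) =
      (∏ i, X.L i ^ (q * χ' i)) * (∏ i, X.L i) ^ (B.m * (k * q)) := by
    rw [← Finset.prod_pow, ← Finset.prod_mul_distrib]
    refine Finset.prod_congr rfl fun i _ => ?_
    rw [← pow_add]
    congr 1
    ring
  rw [h4]
  simp only [mul_pow, inv_pow, mul_inv, ← pow_mul]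
  have h5 : ∀ x y w v u : LB S, x * (y * (x⁻¹ * w)) * (v * u) = v * w * (y * u) := by
    intro x y w v u
    rw [mul_left_comm y, mul_inv_cancel_left]
    rw [mul_comm y w, mul_mul_mul_comm, mul_comm w v]
  exact h5 _ _ _ _ _

end ToricBundle

end Vale.Agent.P281.ToricBundles
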