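import Mathlib.RingTheory.MvPolynomial.Homogeneous
import Mathlib.LinearAlgebra.AffineSpace.Independent
import Vale.Agent.P285.R3.H243.Defs

open MeasureTheory

namespace Vale.Agent.P281.ToricBundles

open Vale.Agent.P270 (IsStable)
open Vale.Agent.P285.ToricOverTori (ToricVariety)

/-! ## The base -/

/-- A connected complex manifold `S` of dimension `g`, glued from the connected open subsets `V i`
of `ℂ^g` (coordinate polydiscs) by the holomorphic coordinate changes `φ i j : W i j → W j i`. -/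
structure Base (g : ℕ) where
  I : Type
  nonempty : Nonempty I
  V : I → Set (Fin g → ℂ)
  isOpen_V : ∀ i, IsOpen (V i)
  connected_V : ∀ i, IsConnected (V i)
  W : I → I → Set (Fin g → ℂ)
  isOpen_W : ∀ i j, IsOpen (W i j)
  W_subset : ∀ i j, W i j ⊆ V i
  φ : I → I → (Fin g → ℂ) → (Fin g → ℂ)
  maps : ∀ i j, ∀ z ∈ W i j, φ i j z ∈ W j i
  holo : ∀ i j, AnalyticOnNhd ℂ (φ i j) (W i j)
  self : ∀ i, W i i = V i ∧ ∀ z ∈ V i, φ i i z = z
  comp : ∀ i j k, ∀ z ∈ W i j, φ i j z ∈ W j k → z ∈ W i k ∧ φ i k z = φ j k (φ i j z)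
  connected : ∀ i j, Relation.ReflTransGen (fun i j => (W i j).Nonempty) i j

variable {g : ℕ}

/-- A line bundle on `S`, trivialised over the `V i`, given by its holomorphic cocycle (whose values
outside of `W i j` do not matter). -/
@[ext]
structure LB (S : Base g) where
  val : S.I → S.I → (Fin g → ℂ) → ℂ
  ne_zero : ∀ i j z, val i j z ≠ 0
  holo : ∀ i j, AnalyticOnNhd ℂ (val i j) (S.W i j)
  cocycle : ∀ i j k, ∀ z ∈ S.W i j, S.φ i j z ∈ S.W j k →
    val i k z = val j k (S.φ i j z) * val i j z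

namespace LB

variable {S : Base g}

/-- The trivial line bundle. -/
instance : One (LB S) where
  one :=
    { val := fun _ _ _ => 1
      ne_zero := fun _ _ _ => one_ne_zero
      holo := fun _ _ => analyticOnNhd_const
      cocycle := fun _ _ _ _ _ _ => by simp }

/-- The tensor product of line bundles. -/
instance : Mul (LB S) where
  mul a b :=
    { val := fun i j z => a.val i j z * b.val i j z
      ne_zero := fun i j z => mul_ne_zero (a.ne_zero i j z) (b.ne_zero i j z)
      holo := fun i j => (a.holo i j).mul (b.holo i j)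
      cocycle := fun i j k z h h' => by
        rw [a.cocycle i j k z h h', b.cocycle i j k z h h']
        ring }

/-- The dual line bundle. -/
noncomputable instance : Inv (LB S) where
  inv a :=
    { val := fun i j z => (a.val i j z)⁻¹
      ne_zero := fun i j z => inv_ne_zero (a.ne_zero i j z)
      holo := fun i j => (a.holo i j).fun_inv fun z _ => a.ne_zero i j z
      cocycle := fun i j k z h h' => by
        rw [a.cocycle i j k z h h', mul_inv] }

@[simp] theorem one_val (i j : S.I) (z : Fin g → ℂ) : (1 : LB S).val i j z = 1 := rfl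

@[simp] theorem mul_val (a b : LB S) (i j : S.I) (z : Fin g → ℂ) :
    (a * b).val i j z = a.val i j z * b.val i j z := rfl

@[simp] theorem inv_val (a : LB S) (i j : S.I) (z : Fin g → ℂ) :
    (a⁻¹).val i j z = (a.val i j z)⁻¹ := rfl

/-- The group of line bundles on `S`. -/
noncomputable instance : CommGroup (LB S) where
  mul_assoc a b c := by ext i j z; simp [mul_assoc]
  one_mul a := by ext i j z; simp
  mul_one a := by ext i j z; simp
  mul_comm a b := by ext i j z; simp [mul_comm]
  inv_mul_cancel a := by ext i j z; simp [ne_zero]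

/-- `f` is a holomorphic section of the line bundle `M` on `S`. -/
def IsSec (M : LB S) (f : S.I → (Fin g → ℂ) → ℂ) : Prop :=
  (∀ i, AnalyticOnNhd ℂ (f i) (S.V i)) ∧
    ∀ i j, ∀ z ∈ S.W i j, f j (S.φ i j z) = M.val i j z * f i z

/-- `K` is the canonical bundle of `S`: its cocycle is the inverse of the Jacobian determinant. -/
def IsCanonical (K : LB S) : Prop :=
  ∀ i j, ∀ z ∈ S.W i j, K.val i j z * (fderiv ℂ (S.φ i j) z).det = 1

/-- The Iitaka dimension of `M` is at least `d`: some positive multiple of `M` has `d + 1` sections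
which satisfy no homogeneous polynomial equation. -/
def IitakaGE (M : LB S) (d : ℕ) : Prop :=
  ∃ k : ℕ, 0 < k ∧ ∃ f : Fin (d + 1) → S.I → (Fin g → ℂ) → ℂ, (∀ a, IsSec (M ^ k) (f a)) ∧
    ∀ (e : ℕ) (P : MvPolynomial (Fin (d + 1)) ℂ), P.IsHomogeneous e →
      (∀ i, ∀ z ∈ S.V i, MvPolynomial.eval (fun a => f a i z) P = 0) → P = 0

end LB

/-! ## Toric bundles -/

/-- The data of a toric bundle `X` over `S`, with fibre the toric variety `F`, twisted by arbitrary
line bundles `L i` on `S`. -/
structure ToricBundle (S : Base g) (n s : ℕ) where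
  F : ToricVariety n s
  L : Fin n → LB S

namespace ToricBundle

variable {S : Base g} {n s : ℕ} (X : ToricBundle S n s)

/-- The points `(z, t)` over `V i`, with `t ∈ ℂ^n` stable. The bundle `X` is the quotient of the
disjoint union of these sets by the action `t j ↦ c ^ deg j * t j` of `c ∈ (ℂˣ)^s` and by the gluing
`(z, t) ↦ (φ i j z, L * t)`. -/
def dom (i : S.I) : Set ((Fin g → ℂ) × (Fin n → ℂ)) :=
  {y | y.1 ∈ S.V i ∧ IsStable X.F.deg X.F.amp y.2}

/-- The group of divisorial sheaves on `X` (of line bundles, if `F` is smooth): a class in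
`ℤ^s = Cl F` and a line bundle on `S`. -/
abbrev LineBundle (_ : ToricBundle S n s) := Multiplicative (Fin s → ℤ) × LB S

variable {X}

/-- The class on the fibre `F`. -/
def cls (D : X.LineBundle) : Fin s → ℤ := D.1.toAdd

/-- `f` is a holomorphic section of `D`. -/
def IsSection (D : X.LineBundle) (f : S.I → (Fin g → ℂ) × (Fin n → ℂ) → ℂ) : Prop :=
  (∀ i, AnalyticOnNhd ℂ (f i) (X.dom i)) ∧
    (∀ i (c : Fin s → ℂˣ), ∀ y ∈ X.dom i,
      f i (y.1, fun l => (∏ j, (c j : ℂ) ^ X.F.deg l j) * y.2 l) =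
        (∏ j, (c j : ℂ) ^ cls D j) * f i y) ∧
    ∀ i j, ∀ y ∈ X.dom i, y.1 ∈ S.W i j →
      f j (S.φ i j y.1, fun l => (X.L l).val i j y.1 * y.2 l) = D.2.val i j y.1 * f i y

/-- The Iitaka dimension of `D` is at least `d`: some positive multiple of `D` has `d + 1` sections
which satisfy no homogeneous polynomial equation. -/
def IitakaGE (D : X.LineBundle) (d : ℕ) : Prop :=
  ∃ k : ℕ, 0 < k ∧ ∃ f : Fin (d + 1) → S.I → (Fin g → ℂ) × (Fin n → ℂ) → ℂ,
    (∀ a, IsSection (D ^ k) (f a)) ∧
    ∀ (e : ℕ) (P : MvPolynomial (Fin (d + 1)) ℂ), P.IsHomogeneous e →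
      (∀ i, ∀ y ∈ X.dom i, MvPolynomial.eval (fun a => f a i y) P = 0) → P = 0

variable (X)

/-- The Iitaka dimension of the class `δ` on the toric variety `F` is at least `d`: for some
`k > 0` the class `k δ` has `d + 1` sections (holomorphic functions on the stable points of `ℂ^n`,
homogeneous of degree `k δ`) which satisfy no homogeneous polynomial equation. -/
def FibreIitakaGE (δ : Fin s → ℤ) (d : ℕ) : Prop :=
  ∃ k : ℕ, 0 < k ∧ ∃ f : Fin (d + 1) → (Fin n → ℂ) → ℂ,
    (∀ a, AnalyticOnNhd ℂ (f a) {t | IsStable X.F.deg X.F.amp t} ∧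
      ∀ (c : Fin s → ℂˣ) (t : Fin n → ℂ), IsStable X.F.deg X.F.amp t →
        f a (fun l => (∏ j, (c j : ℂ) ^ X.F.deg l j) * t l) =
          (∏ j, (c j : ℂ) ^ (k * δ j)) * f a t) ∧
    ∀ (e : ℕ) (P : MvPolynomial (Fin (d + 1)) ℂ), P.IsHomogeneous e →
      (∀ t, IsStable X.F.deg X.F.amp t → MvPolynomial.eval (fun a => f a t) P = 0) → P = 0

/-- The canonical class of `X`, if `K` is the canonical bundle of `S`: the divisor of the form
`dz₁ ∧ ... ∧ dz_g ∧ dt₁ ∧ ... ∧ dt_n` shows that `K_X` is the pull-back of `K_S` minus the sum of the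
divisors `t l = 0`. -/
noncomputable def canonical (K : LB S) : X.LineBundle :=
  (Multiplicative.ofAdd fun j => -∑ l, X.F.deg l j, K * (∏ l, X.L l)⁻¹)

/-- An effective `ℚ`-divisor `Δ = (1 / m) div σ` on `X`, where `σ` is a nonzero section. -/
structure Boundary where
  m : ℕ
  m_pos : 0 < m
  bdl : X.LineBundle
  sec : S.I → (Fin g → ℂ) × (Fin n → ℂ) → ℂ
  isSection : IsSection bdl sec
  ne_zero : ∃ i, ∃ y ∈ X.dom i, sec i y ≠ 0

variable {X}

namespace Boundary

variable (B : X.Boundary)

/-- `(X, Δ)` is log canonical: `(X, c Δ)` is klt, i.e. `|σ| ^ (-2 c / m)` is locally integrable,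
for all positive `c < 1`. -/
def IsLogCanonical : Prop :=
  ∀ c : ℝ, 0 < c → c < 1 → ∀ i, ∀ y ∈ X.dom i, ∃ U ∈ nhds y,
    ∫⁻ x in U, ‖B.sec i x‖ₑ ^ (-(2 * c / B.m : ℝ)) < ⊤

/-- The class `m (K_X + Δ)`, if `K` is the canonical bundle of `S`. -/
noncomputable def logCanonical (K : LB S) : X.LineBundle := X.canonical K ^ B.m * B.bdl

/-- `Δ ≥ f^* ((1 / m) div θ)` for the section `θ` of the line bundle `Θ` on `S`, where
`f : X → S`: the section `σ` is divisible by `θ`. -/
def ContainsPullback (Θ : LB S) (θ : S.I → (Fin g → ℂ) → ℂ) : Prop :=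
  LB.IsSec Θ θ ∧ ∃ σ', IsSection (B.bdl * (1, Θ)⁻¹) σ' ∧
    ∀ i, ∀ y ∈ X.dom i, B.sec i y = θ i y.1 * σ' i y

end Boundary

end ToricBundle

end Vale.Agent.P281.ToricBundles
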