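import Vale.Agent.P281.R3.H243.Local

/-! The Cox expansion of the sections on a toric bundle. -/

open Filter Topology

namespace Vale.Agent.P281.ToricBundles

open Vale.Agent.P270 (IsStable)
open Vale.Agent.P270.ToricBundle (prod_zpow_eq coef_eq_zero)
open Vale.Agent.P285.ToricOverTori (ToricVariety)
open Vale.Agent.P285.ToricOverTori.ToricBundle (isStable_of_ne_zero isStable_update
  isOpen_isStable)

variable {g n s : ℕ} {S : Base g}

namespace ToricBundle

variable {X : ToricBundle S n s}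

theorem isOpen_dom (X : ToricBundle S n s) (i : S.I) : IsOpen (X.dom i) :=
  isOpen_ldom (F := X.F) (S.isOpen_V i)

/-- The coefficients of the Cox expansion of a section. -/
structure Expansion (D : X.LineBundle) (f : S.I → (Fin g → ℂ) × (Fin n → ℂ) → ℂ) where
  supp : Finset (Fin n →₀ ℕ)
  coef : (Fin n →₀ ℕ) → S.I → (Fin g → ℂ) → ℂ
  holo : ∀ χ i, AnalyticOnNhd ℂ (coef χ i) (S.V i)
  ne_zero : ∀ χ ∈ supp, ∃ i, ∃ z ∈ S.V i, coef χ i z ≠ 0
  degree : ∀ χ ∈ supp, ∀ j, ∑ l, (χ l : ℤ) * X.F.deg l j = cls D j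
  eval : ∀ i, ∀ y ∈ X.dom i, f i y = ∑ χ ∈ supp, coef χ i y.1 * ∏ l, y.2 l ^ χ l
  equivar : ∀ χ ∈ supp, ∀ i j, ∀ z ∈ S.W i j,
    coef χ j (S.φ i j z) * ∏ l, (X.L l).val i j z ^ χ l = D.2.val i j z * coef χ i z

/-- Every section has a Cox expansion. -/
theorem exists_expansion {D : X.LineBundle} {f : S.I → (Fin g → ℂ) × (Fin n → ℂ) → ℂ}
    (hf : IsSection D f) : Nonempty (Expansion D f) := by
  classical
  obtain ⟨ι, hι, c, b, hc, huni⟩ := exists_universal (g := g) X.F (cls D)
  have hloc : ∀ i, LHom X.F (cls D) (S.V i) (f i) := fun i =>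
    ⟨(hf.1 i).differentiableOn, fun c y hy => hf.2.1 i c y hy⟩
  have hdiffAt : ∀ i, ∀ y ∈ X.dom i, DifferentiableAt ℂ (f i) y := fun i y hy =>
    ((hf.1 i) y hy).differentiableAt
  -- the coefficients
  let coef : (Fin n →₀ ℕ) → S.I → (Fin g → ℂ) → ℂ := fun χ i z =>
    ∑ k, f i (z, c k) * MvPolynomial.coeff χ (b k)
  let S₀ : Finset (Fin n →₀ ℕ) := Finset.univ.biUnion fun k => (b k).support
  let A : Finset (Fin n →₀ ℕ) := S₀.filter fun χ => ∃ i, ∃ z ∈ S.V i, coef χ i z ≠ 0
  have hA : ∀ χ, χ ∉ A → ∀ i, ∀ z ∈ S.V i, coef χ i z = 0 := by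
    intro χ hχ i z hz
    by_contra hne
    by_cases h : χ ∈ S₀
    · exact hχ (Finset.mem_filter.2 ⟨h, i, z, hz, hne⟩)
    · apply hne
      refine Finset.sum_eq_zero fun k _ => ?_
      have : χ ∉ (b k).support := fun hk => h (Finset.mem_biUnion.2 ⟨k, Finset.mem_univ k, hk⟩)
      rw [MvPolynomial.notMem_support_iff.1 this, mul_zero]
  have heval : ∀ i, ∀ z ∈ S.V i, ∀ t : Fin n → ℂ, (∀ l, t l ≠ 0) →
      f i (z, t) = ∑ χ ∈ A, coef χ i z * ∏ l, t l ^ χ l := by
    intro i z hz t ht
    rw [huni (S.V i) (S.isOpen_V i) (f i) (hloc i) z hz t ht]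
    have h2 : ∀ k, MvPolynomial.eval t (b k) =
        ∑ χ ∈ S₀, MvPolynomial.coeff χ (b k) * ∏ l, t l ^ χ l := by
      intro k
      rw [MvPolynomial.eval_eq']
      refine Finset.sum_subset (fun χ hχ => Finset.mem_biUnion.2 ⟨k, Finset.mem_univ k, hχ⟩)
        fun χ _ hχ => ?_
      rw [MvPolynomial.notMem_support_iff.1 hχ, zero_mul]
    simp only [h2, Finset.mul_sum]
    rw [Finset.sum_comm]
    have h3 : ∀ χ ∈ S₀, ∑ k, f i (z, c k) * (MvPolynomial.coeff χ (b k) * ∏ l, t l ^ χ l) =
        coef χ i z * ∏ l, t l ^ χ l := by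
      intro χ _
      simp only [coef, Finset.sum_mul]
      refine Finset.sum_congr rfl fun k _ => by ring
    rw [Finset.sum_congr rfl h3]
    symm
    refine Finset.sum_subset (Finset.filter_subset _ _) fun χ _ hχ => ?_
    rw [hA χ hχ i z hz, zero_mul]
  refine ⟨⟨A, coef, fun χ i z hz => ?_, fun χ hχ => ?_, fun χ hχ j => ?_,
    fun i y hy => ?_, fun χ hχ i j z hz => ?_⟩⟩
  · -- holomorphic
    refine Finset.analyticAt_fun_sum _ fun k _ => AnalyticAt.mul ?_ analyticAt_const
    have hzz : (z, c k) ∈ X.dom i := ⟨hz, isStable_of_ne_zero X.F (hc k)⟩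
    exact AnalyticAt.comp (f := fun z => (z, c k)) (hf.1 i _ hzz)
      (analyticAt_id.prod analyticAt_const)
  · exact (Finset.mem_filter.1 hχ).2
  · -- degree
    obtain ⟨i, z, hz, hne⟩ := (Finset.mem_filter.1 hχ).2
    let u2 : ℂˣ := Units.mk0 2 two_ne_zero
    let cc : Fin s → ℂˣ := Function.update 1 j u2
    have hcc : ∀ a : Fin s → ℤ, ∏ j', (cc j' : ℂ) ^ a j' = 2 ^ a j := by
      intro a
      rw [Finset.prod_eq_single j]
      · simp [cc, u2]
      · intro j' _ hj'
        simp [cc, Function.update_of_ne hj']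
      · intro h
        exact absurd (Finset.mem_univ _) h
    have h1 := coef_eq_zero A
      (fun χ => ((2 : ℂ) ^ (∑ l, (χ l : ℤ) * X.F.deg l j) - 2 ^ cls D j) * coef χ i z)
      (fun t ht => by
        have h2 := hf.2.1 i cc (z, t) ⟨hz, isStable_of_ne_zero X.F ht⟩
        simp only [hcc] at h2
        have h3 : ∀ l, (2 : ℂ) ^ X.F.deg l j * t l ≠ 0 := fun l =>
          mul_ne_zero (zpow_ne_zero _ two_ne_zero) (ht l)
        rw [heval i z hz _ h3, heval i z hz t ht, ← sub_eq_zero, Finset.mul_sum,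
          ← Finset.sum_sub_distrib] at h2
        rw [← h2]
        refine Finset.sum_congr rfl fun χ _ => ?_
        have h4 : ∏ l, ((2 : ℂ) ^ X.F.deg l j * t l) ^ χ l =
            2 ^ (∑ l, (χ l : ℤ) * X.F.deg l j) * ∏ l, t l ^ χ l := by
          simp only [mul_pow, Finset.prod_mul_distrib]
          congr 1
          rw [← prod_zpow_eq two_ne_zero]
          refine Finset.prod_congr rfl fun l _ => ?_
          rw [mul_comm, zpow_mul, zpow_natCast]
        rw [h4]
        ring) χ hχ
    rcases mul_eq_zero.1 h1 with h2 | h2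
    · have h3 := congrArg (fun x : ℂ => ‖x‖) (sub_eq_zero.1 h2)
      simp only [norm_zpow, Complex.norm_ofNat] at h3
      exact zpow_right_injective₀ (by norm_num) (by norm_num) h3
    · exact absurd h2 hne
  · -- evaluation on the whole domain
    let tt : ℂ → Fin n → ℂ := fun ε l => if y.2 l = 0 then ε else y.2 l
    have htt : Continuous tt := by
      refine continuous_pi fun l => ?_
      by_cases h : y.2 l = 0
      · simp only [tt, h, if_true]
        exact continuous_id
      · simp only [tt, h, if_false]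
        exact continuous_const
    have htt0 : tt 0 = y.2 := by
      ext l
      by_cases h : y.2 l = 0
      · simp [tt, h]
      · simp [tt, h]
    have hyy : (y.1, tt 0) = y := by rw [htt0]
    have h1 : Tendsto (fun ε => f i (y.1, tt ε)) (𝓝[≠] 0) (𝓝 (f i y)) := by
      have h2 : ContinuousAt (f i) (y.1, tt 0) := by
        rw [hyy]
        exact (hdiffAt i y hy).continuousAt
      have h3 : ContinuousAt (fun ε => f i (y.1, tt ε)) 0 :=
        ContinuousAt.comp (f := fun ε => (y.1, tt ε)) h2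
          (continuousAt_const.prodMk htt.continuousAt)
      have h4 := h3.tendsto
      rw [hyy] at h4
      exact h4.mono_left nhdsWithin_le_nhds
    have h2 : Tendsto (fun ε => ∑ χ ∈ A, coef χ i y.1 * ∏ l, tt ε l ^ χ l) (𝓝[≠] 0)
        (𝓝 (∑ χ ∈ A, coef χ i y.1 * ∏ l, y.2 l ^ χ l)) := by
      have h3 : Continuous fun ε => ∑ χ ∈ A, coef χ i y.1 * ∏ l, tt ε l ^ χ l := by
        refine continuous_finsetSum _ fun χ _ => continuous_const.mul
          (continuous_finsetProd _ fun l _ => ((continuous_apply l).comp htt).pow _)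
      have h4 := (h3.continuousAt (x := 0)).tendsto
      rw [htt0] at h4
      exact h4.mono_left nhdsWithin_le_nhds
    refine tendsto_nhds_unique h1 (h2.congr' ?_)
    filter_upwards [self_mem_nhdsWithin] with ε hε
    have hε0 : ε ≠ 0 := hε
    symm
    refine heval i y.1 hy.1 (tt ε) fun l => ?_
    by_cases h : y.2 l = 0
    · simpa [tt, h] using hε0
    · simp [tt, h]
  · -- equivariance
    have hzi : z ∈ S.V i := S.W_subset i j hz
    have hzj : S.φ i j z ∈ S.V j := S.W_subset j i (S.maps i j z hz)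
    have h1 := coef_eq_zero A
      (fun χ => coef χ j (S.φ i j z) * ∏ l, (X.L l).val i j z ^ χ l - D.2.val i j z * coef χ i z)
      (fun t ht => by
        have h2 := hf.2.2 i j (z, t) ⟨hzi, isStable_of_ne_zero X.F ht⟩ hz
        have h4 : ∀ l, (X.L l).val i j z * t l ≠ 0 := fun l =>
          mul_ne_zero ((X.L l).ne_zero i j z) (ht l)
        rw [heval j _ hzj _ h4, heval i z hzi t ht] at h2
        rw [← sub_eq_zero, Finset.mul_sum, ← Finset.sum_sub_distrib] at h2
        rw [← h2]
        refine Finset.sum_congr rfl fun χ _ => ?_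
        simp only [mul_pow, Finset.prod_mul_distrib]
        ring) χ hχ
    exact sub_eq_zero.1 h1

end ToricBundle

end Vale.Agent.P281.ToricBundles
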