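import Vale.Agent.P281.R3.H243.Indep

/-! Campana's orbifold Iitaka inequality for toric bundles. -/

open Filter Topology

namespace Vale.Agent.P281.ToricBundles

open Vale.Agent.P270 (IsStable)
open Vale.Agent.P285.ToricOverTori.ToricBundle (isStable_of_ne_zero)
open LB (IsSec)

namespace ToricBundle

variable {g n s : ℕ} {S : Base g} {X : ToricBundle S n s}

/-- There are `d + 1` monomials of the same degree `k δ`, `k > 0`, with affinely independent
exponents. -/
def MonomialGE (X : ToricBundle S n s) (δ : Fin s → ℤ) (d : ℕ) : Prop :=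
  ∃ k : ℕ, 0 < k ∧ ∃ χ : Fin (d + 1) → Fin n → ℕ,
    (∀ a j, ∑ l, (χ a l : ℤ) * X.F.deg l j = k * δ j) ∧
      AffineIndependent ℚ fun a => fun l => (χ a l : ℚ)

/-- The Iitaka inequality. -/
theorem main {B : X.Boundary} (hB : B.IsLogCanonical) {K Θ : LB S} {D' : X.LineBundle}
    (hD : B.bdl = D' * (1, Θ)) {θ : S.I → (Fin g → ℂ) → ℂ} (hθ : IsSec Θ θ)
    {σ' : S.I → (Fin g → ℂ) × (Fin n → ℂ) → ℂ} (hσ' : IsSection D' σ')
    (hf : ∀ i, ∀ y ∈ X.dom i, B.sec i y = θ i y.1 * σ' i y) {a b : ℕ}
    (ha : X.MonomialGE (cls (B.logCanonical K)) a) (hb : LB.IitakaGE (K ^ B.m * Θ) b) :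
    IitakaGE (B.logCanonical K) (a + b) := by
  classical
  obtain ⟨k, hk, χ, hχdeg, hχind⟩ := ha
  obtain ⟨k', hk', ψ, hψ, hψind⟩ := hb
  -- the coefficients of the monomials
  choose q hq R h hR hR0 hRe using fun c => exists_coeff hB hD hθ hσ' hf hk (hχdeg c)
  set Q : ℕ := ∏ c, q c with hQ
  have hQ0 : 0 < Q := Finset.prod_pos fun c _ => hq c
  let r : Fin (a + 1) → ℕ := fun c => ∏ c' ∈ Finset.univ.erase c, q c'
  have hqr : ∀ c, q c * r c = Q := fun c => Finset.mul_prod_erase _ _ (Finset.mem_univ c)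
  have hkQ : 0 < k * Q := Nat.mul_pos hk hQ0
  -- the sections on the base
  let H : Fin (a + 1) → S.I → (Fin g → ℂ) → ℂ := fun c i z =>
    h c i z ^ (r c * k') * ψ 0 i z ^ (k * Q - 1)
  let RH : Fin (a + 1) → LB S := fun c =>
    R c ^ (r c * k') * ((K ^ B.m * Θ) ^ k') ^ (k * Q - 1)
  have hH : ∀ c, IsSec (RH c) (H c) := fun c => ((hR c).pow _).mul ((hψ 0).pow _)
  have hψ0 : ∃ i, ∃ z ∈ S.V i, ψ 0 i z ≠ 0 := by
    by_contra hcon
    push Not at hcon
    have h1 := hψind 1 (MvPolynomial.X 0) (MvPolynomial.isHomogeneous_X _ _) (fun i z hz => by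
      rw [MvPolynomial.eval_X]
      exact hcon i z hz)
    exact MvPolynomial.X_ne_zero 0 h1
  have hH0 : ∀ c i, ∃ z ∈ S.V i, H c i z ≠ 0 := fun c i =>
    (hH c).ne_zero_chart (((hR c).pow _).mul_ne_zero ((hψ 0).pow _)
      (IsSec.pow_ne_zero (M := 1) (hR0 c) _) (IsSec.pow_ne_zero (M := 1) hψ0 _)) i
  -- the exponents
  let X' : Fin (a + 1) → Fin n → ℕ := fun c l => Q * k' * χ c l
  have hX' : AffineIndependent ℚ fun c => fun l => (X' c l : ℚ) := by
    rw [affineIndependent_iff] at hχind ⊢
    intro A w hw hw'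
    refine hχind A w hw ?_
    funext l
    have h1 := congrFun hw' l
    simp only [Finset.sum_apply, Pi.smul_apply, smul_eq_mul, Pi.zero_apply, X'] at h1 ⊢
    have h2 : ∑ e ∈ A, w e * ((Q * k' * χ e l : ℕ) : ℚ) =
        (Q * k' : ℚ) * ∑ e ∈ A, w e * (χ e l : ℚ) := by
      rw [Finset.mul_sum]
      refine Finset.sum_congr rfl fun e _ => ?_
      push_cast
      ring
    rw [h2] at h1
    have h3 : (Q * k' : ℚ) ≠ 0 := by
      have h4 : (Q : ℚ) ≠ 0 := by exact_mod_cast hQ0.ne'
      have h5 : (k' : ℚ) ≠ 0 := by exact_mod_cast hk'.ne'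
      exact mul_ne_zero h4 h5
    exact (mul_eq_zero.1 h1).resolve_left h3
  refine ⟨k * Q * k', Nat.mul_pos hkQ hk', fun x i y =>
    (∏ l, y.2 l ^ X' (ia a b x) l) * (H (ia a b x) i y.1 * ψ (ib a b x) i y.1), fun x => ?_,
    fun e P hP hP0 => ?_⟩
  · -- they are sections
    have hX := isSection_monomial (X := X) (X' (ia a b x)) ((hH (ia a b x)).mul (hψ (ib a b x)))
    have heq : ((Multiplicative.ofAdd fun j => ∑ l, (X' (ia a b x) l : ℤ) * X.F.deg l j,
        (∏ l, X.L l ^ X' (ia a b x) l) * (RH (ia a b x) * (K ^ B.m * Θ) ^ k')) : X.LineBundle) =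
        B.logCanonical K ^ (k * Q * k') := by
      refine Prod.ext ?_ ?_
      · apply Multiplicative.toAdd.injective
        funext j
        have h1 : cls (B.logCanonical K ^ (k * Q * k')) j =
            ((k * Q * k' : ℕ) : ℤ) * cls (B.logCanonical K) j := cls_pow _ _ _
        change ∑ l, (X' (ia a b x) l : ℤ) * X.F.deg l j = cls (B.logCanonical K ^ (k * Q * k')) j
        rw [h1]
        have h2 : ∑ l, (X' (ia a b x) l : ℤ) * X.F.deg l j =
            Q * k' * ∑ l, (χ (ia a b x) l : ℤ) * X.F.deg l j := by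
          rw [Finset.mul_sum]
          refine Finset.sum_congr rfl fun l _ => ?_
          simp only [X']
          push_cast
          ring
        rw [h2, hχdeg]
        push_cast
        ring
      · rw [Prod.pow_snd]
        set c := ia a b x with hc
        set Y : LB S := K ^ B.m * Θ with hY
        have h1 := hRe c
        have h2 : (∏ l, X.L l ^ X' c l) = (∏ l, X.L l ^ (q c * χ c l)) ^ (r c * k') := by
          rw [← Finset.prod_pow]
          refine Finset.prod_congr rfl fun l _ => ?_
          rw [← pow_mul]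
          congr 1
          simp only [X']
          rw [← hqr c]
          ring
        have h3 : RH c * Y ^ k' = R c ^ (r c * k') * (Y ^ (k * q c)) ^ (r c * k') := by
          simp only [RH]
          rw [mul_assoc]
          congr 1
          rw [← pow_mul, ← pow_mul, ← pow_add]
          congr 1
          have h4 : k * q c * (r c * k') = k * Q * k' := by
            rw [← hqr c]
            ring
          rw [h4]
          have h5 : k' * (k * Q - 1) + k' = k' * (k * Q - 1 + 1) := by ring
          rw [h5, Nat.sub_add_cancel hkQ]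
          ring
        change (∏ l, X.L l ^ X' c l) * (RH c * Y ^ k') = (B.logCanonical K).2 ^ (k * Q * k')
        rw [h2, h3, ← mul_assoc, ← mul_pow, ← mul_pow, h1, ← pow_mul]
        congr 1
        rw [← hqr c]
        ring
    rw [← heq]
    exact hX
  · -- they are independent
    exact independent (ia a b) (ib a b) (fun m m' h1 h2 => separated a b h1 h2) hX'
      (fun c => (hH c).1) hH0 (fun c => (hψ c).1) hψind e P hP fun i z hz t ht =>
        hP0 i (z, t) ⟨hz, isStable_of_ne_zero X.F ht⟩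

end ToricBundle

end Vale.Agent.P281.ToricBundles
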