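import Vale.Agent.P281.R3.H243.AffInd
import Vale.Agent.P281.R3.H243.Main

/-! The Iitaka dimension of the fibre is computed by monomials. -/

namespace Vale.Agent.P281.ToricBundles

open Vale.Agent.P270 (IsStable)

/-- A point. -/
def pt : Base 0 where
  I := Unit
  nonempty := ⟨()⟩
  V := fun _ => Set.univ
  isOpen_V := fun _ => isOpen_univ
  connected_V := fun _ => isConnected_univ
  W := fun _ _ => Set.univ
  isOpen_W := fun _ _ => isOpen_univ
  W_subset := fun _ _ => subset_rfl
  φ := fun _ _ z => z
  maps := fun _ _ _ _ => trivial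
  holo := fun _ _ => analyticOnNhd_id
  self := fun _ => ⟨rfl, fun _ _ => rfl⟩
  comp := fun _ _ _ _ _ _ => ⟨trivial, rfl⟩
  connected := fun _ _ => Relation.ReflTransGen.refl

namespace ToricBundle

variable {g n s : ℕ} {S : Base g} {X : ToricBundle S n s}

/-- The Iitaka dimension of the fibre is computed by monomials. -/
theorem MonomialGE.of_fibreIitakaGE {δ : Fin s → ℤ} {d : ℕ} (h : X.FibreIitakaGE δ d) :
    X.MonomialGE δ d := by
  classical
  obtain ⟨k, hk, f, hf, hind⟩ := h
  let X₀ : ToricBundle pt n s := ⟨X.F, fun _ => 1⟩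
  let D : X₀.LineBundle := (Multiplicative.ofAdd fun j => (k : ℤ) * δ j, 1)
  have hsec : ∀ a, IsSection D fun _ y => f a y.2 := by
    intro a
    refine ⟨fun i y hy => ?_, fun i c y hy => (hf a).2 c y.2 hy.2, fun i j y hy _ => ?_⟩
    · exact AnalyticAt.comp (f := fun y : (Fin 0 → ℂ) × (Fin n → ℂ) => y.2) ((hf a).1 y.2 hy.2)
        analyticAt_snd
    · simp [X₀, D]
  let E := fun a => Classical.choice (exists_expansion (hsec a))
  let p : Fin (d + 1) → MvPolynomial (Fin n) ℂ := fun a =>
    ∑ χ ∈ (E a).supp, MvPolynomial.monomial χ ((E a).coef χ () default)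
  have hp : ∀ a t, IsStable X.F.deg X.F.amp t → MvPolynomial.eval t (p a) = f a t := by
    intro a t ht
    have h1 := (E a).eval () (default, t) ⟨trivial, ht⟩
    simp only at h1
    rw [h1, map_sum]
    refine Finset.sum_congr rfl fun χ _ => ?_
    rw [MvPolynomial.eval_monomial, Finsupp.prod_fintype _ _ (fun _ => pow_zero _)]
  obtain ⟨χ, hχ, hχind⟩ := exists_affineIndependent_exponents
    (Finset.univ.biUnion fun a => (E a).supp) p (fun a => by
      intro χ hχ
      refine Finset.mem_biUnion.2 ⟨a, Finset.mem_univ _, ?_⟩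
      by_contra hne
      refine MvPolynomial.mem_support_iff.1 hχ ?_
      rw [MvPolynomial.coeff_sum]
      refine Finset.sum_eq_zero fun χ' hχ' => ?_
      rw [MvPolynomial.coeff_monomial, if_neg]
      rintro rfl
      exact hne hχ') fun e P hP hP0 => hind e P hP fun t ht => by
        have h1 := congrArg (MvPolynomial.eval t) hP0
        rw [map_zero] at h1
        rw [← h1]
        have h2 : MvPolynomial.eval t (MvPolynomial.aeval p P) =
            MvPolynomial.eval (fun a => MvPolynomial.eval t (p a)) P := by
          rw [MvPolynomial.aeval_def, MvPolynomial.eval₂_eq', map_sum, MvPolynomial.eval_eq']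
          refine Finset.sum_congr rfl fun m _ => ?_
          rw [map_mul, map_prod, MvPolynomial.algebraMap_eq, MvPolynomial.eval_C]
          simp only [map_pow]
        rw [h2]
        congr 1
        simp only [hp _ t ht]
  refine ⟨k, hk, fun a => χ a, fun a j => ?_, hχind⟩
  obtain ⟨a', -, h⟩ := Finset.mem_biUnion.1 (hχ a)
  exact (E a').degree _ h j

end ToricBundle

end Vale.Agent.P281.ToricBundles
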