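import Vale.Agent.P281.R3.H243.Coeff

/-! Algebraic independence of the products of monomial sections and of sections on the base. -/

open Filter Topology

namespace Vale.Agent.P281.ToricBundles

open Vale.Agent.P270 (IsStable)
open Vale.Agent.P270.ToricBundle (coef_eq_zero)
open Vale.Agent.P285.ToricOverTori.ToricBundle (isStable_of_ne_zero)

section Index

variable (a b : ℕ)

/-- The index of the monomial. -/
def ia (r : Fin (a + b + 1)) : Fin (a + 1) := if h : r.1 < a + 1 then ⟨r.1, h⟩ else 0

/-- The index of the section on the base. -/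
def ib (r : Fin (a + b + 1)) : Fin (b + 1) :=
  if r.1 < a + 1 then 0 else ⟨r.1 - a, by omega⟩

theorem mapDomain_apply_fin {ι κ : Type*} [Fintype ι] [DecidableEq κ] (f : ι → κ) (m : ι →₀ ℕ)
    (x : κ) : (m.mapDomain f) x = ∑ r, if f r = x then m r else 0 := by
  classical
  rw [Finsupp.mapDomain, Finsupp.sum_apply, Finsupp.sum_fintype _ _ (by simp)]
  refine Finset.sum_congr rfl fun r _ => ?_
  rw [Finsupp.single_apply]

theorem separated {m m' : Fin (a + b + 1) →₀ ℕ} (h1 : m.mapDomain (ia a b) = m'.mapDomain (ia a b))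
    (h2 : m.mapDomain (ib a b) = m'.mapDomain (ib a b)) : m = m' := by
  classical
  -- the indices in the first block
  have hA : ∀ r : Fin (a + b + 1), r ≠ 0 → r.1 < a + 1 → m r = m' r := by
    intro r hr0 hr
    have h3 := congrArg (fun f => f (ia a b r)) h1
    simp only [mapDomain_apply_fin] at h3
    have h4 : ∀ m : Fin (a + b + 1) →₀ ℕ,
        ∑ r', (if ia a b r' = ia a b r then m r' else 0) = m r := by
      intro m
      rw [Finset.sum_eq_single r]
      · simp
      · intro r' _ hne
        rw [if_neg]
        intro h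
        apply hne
        unfold ia at h
        rw [dif_pos hr] at h
        split_ifs at h with h'
        · rw [Fin.ext_iff] at h ⊢
          exact h
        · rw [Fin.ext_iff] at h
          exfalso
          apply hr0
          rw [Fin.ext_iff]
          exact h.symm
      · intro h
        exact absurd (Finset.mem_univ _) h
    rw [h4, h4] at h3
    exact h3
  have hB : ∀ r : Fin (a + b + 1), ¬ r.1 < a + 1 → m r = m' r := by
    intro r hr
    have h3 := congrArg (fun f => f (ib a b r)) h2
    simp only [mapDomain_apply_fin] at h3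
    have h4 : ∀ m : Fin (a + b + 1) →₀ ℕ,
        ∑ r', (if ib a b r' = ib a b r then m r' else 0) = m r := by
      intro m
      rw [Finset.sum_eq_single r]
      · simp
      · intro r' _ hne
        rw [if_neg]
        intro h
        apply hne
        unfold ib at h
        rw [if_neg hr] at h
        split_ifs at h with h'
        · rw [Fin.ext_iff] at h
          have h5 : (0 : ℕ) = r.1 - a := h
          omega
        · rw [Fin.ext_iff] at h ⊢
          have h5 : r'.1 - a = r.1 - a := h
          omega
      · intro h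
        exact absurd (Finset.mem_univ _) h
    rw [h4, h4] at h3
    exact h3
  have h0 : m 0 = m' 0 := by
    have h3 := congrArg (fun f => f (ia a b 0)) h1
    simp only [mapDomain_apply_fin] at h3
    rw [← Finset.add_sum_erase Finset.univ _ (Finset.mem_univ 0),
      ← Finset.add_sum_erase Finset.univ _ (Finset.mem_univ 0)] at h3
    simp only [if_true] at h3
    have h4 : ∑ r' ∈ Finset.univ.erase (0 : Fin (a + b + 1)),
        (if ia a b r' = ia a b 0 then m r' else 0) =
        ∑ r' ∈ Finset.univ.erase (0 : Fin (a + b + 1)),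
        (if ia a b r' = ia a b 0 then m' r' else 0) := by
      refine Finset.sum_congr rfl fun r' hr' => ?_
      have hr0 := Finset.ne_of_mem_erase hr'
      by_cases h : r'.1 < a + 1
      · rw [hA r' hr0 h]
      · rw [hB r' h]
    omega
  ext r
  by_cases hr0 : r = 0
  · rw [hr0]
    exact h0
  · by_cases h : r.1 < a + 1
    · exact hA r hr0 h
    · exact hB r h

end Index

variable {g n s : ℕ} {S : Base g} {X : ToricBundle S n s}

/-- Independence: products of monomials with affinely independent exponents (and nonzero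
coefficients on the base) and of independent sections on the base. -/
theorem independent {ι : Type*} [Fintype ι] {a b : ℕ} (α : ι → Fin (a + 1)) (β : ι → Fin (b + 1))
    (hsep : ∀ m m' : ι →₀ ℕ, m.mapDomain α = m'.mapDomain α →
      m.mapDomain β = m'.mapDomain β → m = m')
    {X' : Fin (a + 1) → Fin n → ℕ} (hX' : AffineIndependent ℚ fun c => fun l => (X' c l : ℚ))
    {H : Fin (a + 1) → S.I → (Fin g → ℂ) → ℂ} (hH : ∀ c i, AnalyticOnNhd ℂ (H c i) (S.V i))
    (hH0 : ∀ c i, ∃ z ∈ S.V i, H c i z ≠ 0)
    {θ : Fin (b + 1) → S.I → (Fin g → ℂ) → ℂ} (hθ : ∀ c i, AnalyticOnNhd ℂ (θ c i) (S.V i))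
    (hind : ∀ (e : ℕ) (P : MvPolynomial (Fin (b + 1)) ℂ), P.IsHomogeneous e →
      (∀ i, ∀ z ∈ S.V i, MvPolynomial.eval (fun c => θ c i z) P = 0) → P = 0)
    (e : ℕ) (P : MvPolynomial ι ℂ) (hP : P.IsHomogeneous e)
    (hP0 : ∀ i, ∀ z ∈ S.V i, ∀ t : Fin n → ℂ, (∀ l, t l ≠ 0) →
      MvPolynomial.eval (fun r => (∏ l, t l ^ X' (α r) l) * (H (α r) i z * θ (β r) i z)) P = 0) :
    P = 0 := by
  classical
  -- the exponents
  let Ex : (ι →₀ ℕ) → (Fin n →₀ ℕ) := fun m =>
    Finsupp.equivFunOnFinite.symm fun l => ∑ r, m r * X' (α r) l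
  have hEx : ∀ m l, Ex m l = ∑ r, m r * X' (α r) l := fun _ _ => rfl
  have hdeg : ∀ m ∈ P.support, ∑ r, m r = e := by
    intro m hm
    have := hP (MvPolynomial.mem_support_iff.1 hm)
    rw [← this, Finsupp.weight_apply, Finsupp.sum_fintype _ _ (by simp)]
    simp
  -- exponents determine the first block
  have hExα : ∀ m ∈ P.support, ∀ m' ∈ P.support, Ex m = Ex m' →
      m.mapDomain α = m'.mapDomain α := by
    intro m hm m' hm' h
    rw [affineIndependent_iff] at hX'
    have hsum : ∀ (m : ι →₀ ℕ) (G : Fin (a + 1) → ℚ),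
        ∑ c, ((m.mapDomain α c : ℕ) : ℚ) * G c = ∑ r, (m r : ℚ) * G (α r) := by
      intro m G
      have h1 : ∀ c, ((m.mapDomain α c : ℕ) : ℚ) * G c =
          ∑ r, if α r = c then (m r : ℚ) * G (α r) else 0 := by
        intro c
        rw [mapDomain_apply_fin, Nat.cast_sum, Finset.sum_mul]
        refine Finset.sum_congr rfl fun r _ => ?_
        split_ifs with h2
        · rw [h2]
        · simp
      simp only [h1]
      rw [Finset.sum_comm]
      refine Finset.sum_congr rfl fun r _ => ?_
      simp
    have h3 := hX' Finset.univ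
      (fun c => ((m.mapDomain α c : ℕ) : ℚ) - ((m'.mapDomain α c : ℕ) : ℚ)) (by
        rw [Finset.sum_sub_distrib]
        have h4 := hsum m fun _ => 1
        have h5 := hsum m' fun _ => 1
        simp only [mul_one] at h4 h5
        rw [h4, h5]
        have h6 : (∑ r, (m r : ℚ)) = e := by exact_mod_cast hdeg m hm
        have h7 : (∑ r, (m' r : ℚ)) = e := by exact_mod_cast hdeg m' hm'
        rw [h6, h7, sub_self]) (by
        funext l
        simp only [Finset.sum_apply, Pi.smul_apply, smul_eq_mul, sub_mul,
          Finset.sum_sub_distrib, Pi.zero_apply]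
        rw [hsum m fun c => (X' c l : ℚ), hsum m' fun c => (X' c l : ℚ)]
        have h6 := congrArg (fun f => f l) h
        simp only [hEx] at h6
        have h7 : (∑ r, (m r : ℚ) * (X' (α r) l : ℚ)) = ∑ r, (m' r : ℚ) * (X' (α r) l : ℚ) := by
          exact_mod_cast h6
        rw [h7, sub_self])
    ext c
    have h4 := h3 c (Finset.mem_univ c)
    have h5 : ((m.mapDomain α c : ℕ) : ℚ) = ((m'.mapDomain α c : ℕ) : ℚ) := by linarith
    exact_mod_cast h5
  -- one coefficient
  by_contra hPne
  obtain ⟨m₀, hm₀⟩ := Finset.nonempty_iff_ne_empty.2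
    (fun h => hPne (MvPolynomial.support_eq_empty.1 h))
  let A : Finset (ι →₀ ℕ) := P.support.filter fun m => Ex m = Ex m₀
  let Q : MvPolynomial (Fin (b + 1)) ℂ :=
    ∑ m ∈ A, MvPolynomial.monomial (m.mapDomain β) (P.coeff m)
  have hQhom : Q.IsHomogeneous e := by
    refine MvPolynomial.IsHomogeneous.sum _ _ _ fun m hm => ?_
    refine MvPolynomial.isHomogeneous_monomial _ ?_
    have h1 := hdeg m (Finset.mem_filter.1 hm).1
    rw [Finsupp.degree_eq_sum]
    rw [← h1]
    have h2 : ∀ c, (m.mapDomain β) c = ∑ r, if β r = c then m r else 0 := fun c =>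
      mapDomain_apply_fin β m c
    simp only [h2]
    rw [Finset.sum_comm]
    refine Finset.sum_congr rfl fun r _ => ?_
    simp
  have hQ0 : Q = 0 := by
    refine hind e Q hQhom fun i => ?_
    -- the common factor
    let G : (Fin g → ℂ) → ℂ := fun z => ∏ r, H (α r) i z ^ m₀ r
    have hG : AnalyticOnNhd ℂ G (S.V i) := fun z hz =>
      Finset.analyticAt_fun_prod _ fun r _ => (hH (α r) i z hz).pow _
    have hG0 : ∃ z ∈ S.V i, G z ≠ 0 := by
      have : ∀ T : Finset ι, ∃ z ∈ S.V i, ∏ r ∈ T, H (α r) i z ^ m₀ r ≠ 0 := by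
        intro T
        induction T using Finset.induction_on with
        | empty =>
          obtain ⟨z, hz⟩ := (S.connected_V i).nonempty
          exact ⟨z, hz, by simp⟩
        | insert r T hr ih =>
          simp only [Finset.prod_insert hr]
          refine exists_mul_ne_zero (S.isOpen_V i) (S.connected_V i).isPreconnected
            (fun z hz => (hH (α r) i z hz).pow _)
            (fun z hz => Finset.analyticAt_fun_prod _ fun r _ => (hH (α r) i z hz).pow _) ?_ ih
          obtain ⟨z, hz, h⟩ := hH0 (α r) i
          exact ⟨z, hz, pow_ne_zero _ h⟩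
      exact this Finset.univ
    have hQan : AnalyticOnNhd ℂ (fun z => MvPolynomial.eval (fun c => θ c i z) Q) (S.V i) := by
      intro z hz
      simp only [MvPolynomial.eval_eq']
      refine Finset.analyticAt_fun_sum _ fun m _ => AnalyticAt.mul analyticAt_const ?_
      exact Finset.analyticAt_fun_prod _ fun c _ => (hθ c i z hz).pow _
    refine eq_zero_of_mul (S.isOpen_V i) (S.connected_V i).isPreconnected hG hQan
      (fun z hz => ?_) hG0
    -- the coefficient of the monomial
    have h1 := coef_eq_zero (P.support.image Ex)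
      (fun ε => ∑ m ∈ P.support.filter (fun m => Ex m = ε),
        P.coeff m * ∏ r, (H (α r) i z * θ (β r) i z) ^ m r) (fun t ht => by
        have h2 := hP0 i z hz t ht
        rw [MvPolynomial.eval_eq'] at h2
        rw [← h2, ← Finset.sum_fiberwise_of_maps_to (s := P.support) (t := P.support.image Ex)
          (g := Ex) fun m hm => Finset.mem_image_of_mem Ex hm]
        refine Finset.sum_congr rfl fun ε _ => ?_
        rw [Finset.sum_mul]
        refine Finset.sum_congr rfl fun m hm => ?_
        have h3 := (Finset.mem_filter.1 hm).2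
        simp only [mul_pow, Finset.prod_mul_distrib, ← h3, hEx]
        have h4 : ∏ l, t l ^ ∑ r, m r * X' (α r) l = ∏ r, (∏ l, t l ^ X' (α r) l) ^ m r := by
          simp only [← Finset.prod_pow, ← Finset.prod_pow_eq_pow_sum]
          rw [Finset.prod_comm]
          refine Finset.prod_congr rfl fun r _ => Finset.prod_congr rfl fun l _ => ?_
          rw [← pow_mul, mul_comm]
        rw [h4]
        ring) (Ex m₀) (Finset.mem_image_of_mem Ex hm₀)
    beta_reduce at h1
    rw [← h1]
    have h5 : MvPolynomial.eval (fun c => θ c i z) Q =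
        ∑ m ∈ A, P.coeff m * ∏ r, θ (β r) i z ^ m r := by
      rw [map_sum]
      refine Finset.sum_congr rfl fun m _ => ?_
      rw [MvPolynomial.eval_monomial, Finsupp.prod_mapDomain_index (by simp) (by
        intro _ _ _
        rw [pow_add])]
      congr 1
      exact Finsupp.prod_fintype _ _ (by simp)
    rw [h5, Finset.mul_sum]
    refine Finset.sum_congr rfl fun m hm => ?_
    obtain ⟨hmP, hmE⟩ := Finset.mem_filter.1 hm
    have h6 : ∏ r, H (α r) i z ^ m r = ∏ r, H (α r) i z ^ m₀ r := by
      have h7 : ∀ m : ι →₀ ℕ, ∏ r, H (α r) i z ^ m r =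
          (m.mapDomain α).prod fun c k => H c i z ^ k := by
        intro m
        rw [Finsupp.prod_mapDomain_index (by simp) (by
          intro _ _ _
          rw [pow_add])]
        exact (Finsupp.prod_fintype _ _ (by simp)).symm
      rw [h7, h7, hExα m hmP m₀ hm₀ hmE]
    simp only [mul_pow, Finset.prod_mul_distrib, G]
    rw [h6]
    ring
  -- the coefficient of `Q`
  have h1 := congrArg (MvPolynomial.coeff (m₀.mapDomain β)) hQ0
  simp only [Q] at h1
  rw [MvPolynomial.coeff_sum, MvPolynomial.coeff_zero] at h1
  simp only [MvPolynomial.coeff_monomial] at h1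
  rw [Finset.sum_eq_single m₀] at h1
  · rw [if_pos rfl] at h1
    exact MvPolynomial.mem_support_iff.1 hm₀ h1
  · intro m hm hne
    obtain ⟨hmP, hmE⟩ := Finset.mem_filter.1 hm
    rw [if_neg]
    intro h
    exact hne (hsep m m₀ (hExα m hmP m₀ hm₀ hmE) h)
  · intro h
    have h2 : m₀ ∈ A := Finset.mem_filter.2 ⟨hm₀, rfl⟩
    exact absurd h2 h

end Vale.Agent.P281.ToricBundles
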