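import Vale.Agent.P285.R3.H243.Expand
import Vale.Agent.P281.R3.H243.Defs

/-! The Cox expansion over one chart: every holomorphic function on `V × (stable points)` which is
homogeneous of degree `d` is a polynomial in the homogeneous coordinates. -/

open Filter Topology

namespace Vale.Agent.P281.ToricBundles

open Vale.Agent.P270 (IsStable exists_polynomial_of_growth exists_interpolation)
open Vale.Agent.P270.ToricBundle (prod_zpow_eq coef_eq_zero)
open Vale.Agent.P285.ToricOverTori (ToricVariety)
open Vale.Agent.P285.ToricOverTori.ToricBundle (isStable_of_ne_zero isStable_update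
  isOpen_isStable)

variable {g n s : ℕ}

/-- The points over `V`. -/
def ldom (F : ToricVariety n s) (V : Set (Fin g → ℂ)) : Set ((Fin g → ℂ) × (Fin n → ℂ)) :=
  {y | y.1 ∈ V ∧ IsStable F.deg F.amp y.2}

/-- A homogeneous holomorphic function over `V`. -/
def LHom (F : ToricVariety n s) (d : Fin s → ℤ) (V : Set (Fin g → ℂ))
    (f : (Fin g → ℂ) × (Fin n → ℂ) → ℂ) : Prop :=
  DifferentiableOn ℂ f (ldom F V) ∧ ∀ (c : Fin s → ℂˣ), ∀ y ∈ ldom F V,
    f (y.1, fun l => (∏ j, (c j : ℂ) ^ F.deg l j) * y.2 l) = (∏ j, (c j : ℂ) ^ d j) * f y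

variable {F : ToricVariety n s} {d : Fin s → ℤ} {V : Set (Fin g → ℂ)}

theorem isOpen_ldom (hV : IsOpen V) : IsOpen (ldom (g := g) F V) :=
  (hV.preimage continuous_fst).inter ((isOpen_isStable F).preimage continuous_snd)

/-- The maximum principle in each variable. -/
theorem norm_le_of_unit (hV : IsOpen V) {f : (Fin g → ℂ) × (Fin n → ℂ) → ℂ}
    (hf : LHom F d V f) {z : Fin g → ℂ} (hz : z ∈ V) {M : ℝ}
    (hM : ∀ t : Fin n → ℂ, (∀ i, ‖t i‖ = 1) → ‖f (z, t)‖ ≤ M) (A : Finset (Fin n)) :
    ∀ t : Fin n → ℂ, (∀ i ∈ A, t i ≠ 0 ∧ ‖t i‖ ≤ 1) →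
      (∀ i, i ∉ A → ‖t i‖ = 1) → ‖f (z, t)‖ ≤ M := by
  classical
  induction A using Finset.induction_on with
  | empty => exact fun t _ h => hM t fun i => h i (Finset.notMem_empty i)
  | insert a A ha ih =>
    intro t h1 h2
    have ht0 : ∀ i, t i ≠ 0 := by
      intro i
      by_cases hi : i ∈ insert a A
      · exact (h1 i hi).1
      · intro h0
        have := h2 i hi
        rw [h0, norm_zero] at this
        exact zero_ne_one this
    have hd : Differentiable ℂ fun x : ℂ => f (z, Function.update t a x) := by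
      intro x
      have hx : (z, Function.update t a x) ∈ ldom F V := ⟨hz, isStable_update F ht0 a x⟩
      have h3 : DifferentiableAt ℂ f (z, Function.update t a x) :=
        hf.1.differentiableAt ((isOpen_ldom hV).mem_nhds hx)
      have h4 : DifferentiableAt ℂ (fun x : ℂ => (z, Function.update t a x)) x := by
        refine (differentiableAt_const z).prodMk (differentiableAt_pi.2 fun i => ?_)
        by_cases hi : i = a
        · subst hi
          simp only [Function.update_self]
          exact differentiableAt_id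
        · simp only [Function.update_of_ne hi]
          exact differentiableAt_const _
      exact DifferentiableAt.comp x (f := fun x : ℂ => (z, Function.update t a x)) h3 h4
    have h5 := Complex.norm_le_of_forall_mem_frontier_norm_le (U := Metric.ball (0 : ℂ) 1)
      Metric.isBounded_ball hd.diffContOnCl (C := M) (fun x hx => by
        have hx1 : ‖x‖ = 1 := by
          rw [frontier_ball _ one_ne_zero] at hx
          simpa using hx
        refine ih _ (fun i hi => ?_) (fun i hi => ?_)
        · have hia : i ≠ a := fun h => ha (h ▸ hi)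
          rw [Function.update_of_ne hia]
          exact h1 i (Finset.mem_insert_of_mem hi)
        · by_cases hia : i = a
          · subst hia
            simpa using hx1
          · rw [Function.update_of_ne hia]
            exact h2 i (by simp [Finset.mem_insert, hia, hi]))
      (z := t a) (by
        rw [closure_ball _ one_ne_zero]
        simpa using (h1 a (Finset.mem_insert_self _ _)).2)
    simpa using h5

/-- Polynomial growth in the homogeneous coordinates, with a uniform exponent. -/
theorem norm_le_growth (F : ToricVariety n s) (d : Fin s → ℤ) : ∃ N : ℕ,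
    ∀ (V : Set (Fin g → ℂ)), IsOpen V → ∀ f, LHom F d V f → ∀ z ∈ V, ∃ M : ℝ, 0 ≤ M ∧
      ∀ t : Fin n → ℂ, (∀ i, t i ≠ 0) → ∀ R : ℝ, 1 ≤ R → (∀ i, ‖t i‖ ≤ R) →
        ‖f (z, t)‖ ≤ M * R ^ N := by
  obtain ⟨w, hw⟩ := F.projective
  set e : ℤ := ∑ j, w j * d j with he
  refine ⟨e.natAbs, fun V hV f hf z hz => ?_⟩
  -- the maximum on the unit torus
  have hcomp : IsCompact {t : Fin n → ℂ | ∀ i, ‖t i‖ = 1} := by
    have : {t : Fin n → ℂ | ∀ i, ‖t i‖ = 1} = Set.univ.pi fun _ => Metric.sphere (0 : ℂ) 1 := by
      ext t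
      simp
    rw [this]
    exact isCompact_univ_pi fun _ => isCompact_sphere _ _
  have hcont : ContinuousOn (fun t : Fin n → ℂ => ‖f (z, t)‖) {t : Fin n → ℂ | ∀ i, ‖t i‖ = 1} := by
    refine ContinuousOn.norm ?_
    have h1 : ContinuousOn f (ldom F V) := hf.1.continuousOn
    refine h1.comp (by fun_prop) fun t ht => ?_
    refine ⟨hz, isStable_of_ne_zero F fun i h0 => ?_⟩
    have h0' : t i = 0 := h0
    have := ht i
    rw [h0', norm_zero] at this
    exact zero_ne_one this
  obtain ⟨M, hM⟩ := hcomp.bddAbove_image hcont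
  have hM' : ∀ t : Fin n → ℂ, (∀ i, ‖t i‖ = 1) → ‖f (z, t)‖ ≤ M := fun t ht =>
    hM ⟨t, ht, rfl⟩
  have hM0 : 0 ≤ M := (norm_nonneg _).trans (hM' (fun _ => 1) fun _ => norm_one)
  refine ⟨M, hM0, fun t ht R hR htR => ?_⟩
  have hR0 : 0 < R := by linarith
  have hRC : (R : ℂ) ≠ 0 := by exact_mod_cast hR0.ne'
  -- rescale
  let c : Fin s → ℂˣ := fun j => (Units.mk0 (R : ℂ) hRC) ^ w j
  have hc : ∀ a : Fin s → ℤ, ∏ j, (c j : ℂ) ^ a j = (R : ℂ) ^ (∑ j, w j * a j) := by
    intro a
    have : ∀ j, (c j : ℂ) ^ a j = (R : ℂ) ^ (w j * a j) := by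
      intro j
      simp only [c, Units.val_zpow_eq_zpow_val, Units.val_mk0, zpow_mul]
    simp only [this]
    exact prod_zpow_eq hRC _ _
  let t' : Fin n → ℂ := fun i => (R : ℂ) ^ (-(∑ j, w j * F.deg i j)) * t i
  have ht'0 : ∀ i, t' i ≠ 0 := fun i => mul_ne_zero (zpow_ne_zero _ hRC) (ht i)
  have h1 := hf.2 c (z, t') ⟨hz, isStable_of_ne_zero F ht'0⟩
  have h2 : (fun i => (∏ j, (c j : ℂ) ^ F.deg i j) * t' i) = t := by
    ext i
    rw [hc]
    simp only [t']
    rw [← mul_assoc, ← zpow_add₀ hRC, add_neg_cancel, zpow_zero, one_mul]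
  rw [hc] at h1
  change f (z, fun i => (∏ j, (c j : ℂ) ^ F.deg i j) * t' i) = _ at h1
  rw [h2] at h1
  rw [h1, norm_mul, norm_zpow, Complex.norm_real, Real.norm_of_nonneg hR0.le]
  have h3 : ‖f (z, t')‖ ≤ M := by
    refine norm_le_of_unit hV hf hz hM' Finset.univ t' (fun i _ => ⟨ht'0 i, ?_⟩)
      (fun i hi => absurd (Finset.mem_univ i) hi)
    simp only [t']
    rw [norm_mul, norm_zpow, Complex.norm_real, Real.norm_of_nonneg hR0.le, zpow_neg,
      inv_mul_le_iff₀ (zpow_pos hR0 _), mul_one]
    refine (htR i).trans ?_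
    have h4 : (1 : ℤ) ≤ ∑ j, w j * F.deg i j := hw i
    calc R = R ^ (1 : ℤ) := (zpow_one R).symm
      _ ≤ _ := zpow_le_zpow_right₀ hR h4
  have h5 : R ^ e ≤ R ^ e.natAbs := by
    rw [← zpow_natCast]
    exact zpow_le_zpow_right₀ hR Int.le_natAbs
  calc R ^ (∑ j, w j * d j) * ‖f (z, t')‖ ≤ R ^ e.natAbs * M := by
        gcongr
    _ = M * R ^ e.natAbs := mul_comm _ _

/-- The universal expansion: the coefficients are the same linear combinations of the values of `f`
at finitely many points `t = c k`, for all `V` and `f`. -/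
theorem exists_universal (F : ToricVariety n s) (d : Fin s → ℤ) :
    ∃ (ι : Type) (_ : Fintype ι) (c : ι → Fin n → ℂ) (b : ι → MvPolynomial (Fin n) ℂ),
      (∀ k i, c k i ≠ 0) ∧ ∀ (V : Set (Fin g → ℂ)), IsOpen V → ∀ f, LHom F d V f → ∀ z ∈ V,
        ∀ t : Fin n → ℂ, (∀ i, t i ≠ 0) → f (z, t) = ∑ k, f (z, c k) * MvPolynomial.eval t (b k) := by
  classical
  obtain ⟨N, hN⟩ := norm_le_growth (g := g) F d
  obtain ⟨ι, hι, c, b, hc, hint⟩ := exists_interpolation n N Finset.univ
  refine ⟨ι, hι, c, b, hc, fun V hV f hf z hz t ht => ?_⟩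
  have hdiffAt : ∀ y ∈ ldom F V, DifferentiableAt ℂ f y := fun y hy =>
    hf.1.differentiableAt ((isOpen_ldom hV).mem_nhds hy)
  have hpoly : ∀ t : Fin n → ℂ, (∀ i, t i ≠ 0) → ∀ i,
      ∃ p : Polynomial ℂ, p.degree < (N + 1 : ℕ) ∧
        ∀ x, x ≠ 0 → f (z, Function.update t i x) = p.eval x := by
    intro t ht i
    obtain ⟨M, hM0, hM⟩ := hN V hV f hf z hz
    have hd : Differentiable ℂ fun x : ℂ => f (z, Function.update t i x) := by
      intro x
      have hx : (z, Function.update t i x) ∈ ldom F V := ⟨hz, isStable_update F ht i x⟩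
      have h4 : DifferentiableAt ℂ (fun x : ℂ => (z, Function.update t i x)) x := by
        refine (differentiableAt_const z).prodMk (differentiableAt_pi.2 fun i' => ?_)
        by_cases hi : i' = i
        · subst hi
          simp only [Function.update_self]
          exact differentiableAt_id
        · simp only [Function.update_of_ne hi]
          exact differentiableAt_const _
      exact DifferentiableAt.comp x (f := fun x : ℂ => (z, Function.update t i x)) (hdiffAt _ hx) h4
    set K : ℝ := 1 + ∑ k, ‖t k‖ with hK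
    have hK1 : 1 ≤ K := by
      rw [hK]
      have : 0 ≤ ∑ k, ‖t k‖ := Finset.sum_nonneg fun k _ => norm_nonneg _
      linarith
    have hgr : ∀ x, ‖f (z, Function.update t i x)‖ ≤ M * K ^ N * max 1 ‖x‖ ^ N := by
      have hclosed : IsClosed {x : ℂ | ‖f (z, Function.update t i x)‖ ≤
          M * K ^ N * max 1 ‖x‖ ^ N} := by
        refine isClosed_le hd.continuous.norm ?_
        fun_prop
      have hsub : {x : ℂ | x ≠ 0} ⊆ {x : ℂ | ‖f (z, Function.update t i x)‖ ≤
          M * K ^ N * max 1 ‖x‖ ^ N} := by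
        intro x hx
        have hx0 : x ≠ 0 := hx
        have h1 := hM (Function.update t i x) (fun i' => by
          by_cases hi : i' = i
          · subst hi
            simpa using hx0
          · rw [Function.update_of_ne hi]
            exact ht i') (K * max 1 ‖x‖) (one_le_mul_of_one_le_of_one_le hK1 (le_max_left _ _))
          (fun i' => by
            by_cases hi : i' = i
            · subst hi
              rw [Function.update_self]
              calc ‖x‖ ≤ max 1 ‖x‖ := le_max_right _ _
                _ = 1 * max 1 ‖x‖ := (one_mul _).symm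
                _ ≤ K * max 1 ‖x‖ := by gcongr
            · rw [Function.update_of_ne hi]
              have h2 : ‖t i'‖ ≤ K := by
                rw [hK]
                have := Finset.single_le_sum (f := fun k => ‖t k‖)
                  (fun k _ => norm_nonneg (t k)) (Finset.mem_univ i')
                linarith
              calc ‖t i'‖ ≤ K := h2
                _ = K * 1 := (mul_one _).symm
                _ ≤ K * max 1 ‖x‖ := by gcongr; exact le_max_left _ _)
        change ‖f (z, Function.update t i x)‖ ≤ M * K ^ N * max 1 ‖x‖ ^ N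
        rw [mul_pow] at h1
        linarith
      intro x
      have hdense : Dense {x : ℂ | x ≠ 0} := dense_compl_singleton (0 : ℂ)
      exact hclosed.closure_subset_iff.2 hsub (hdense x)
    obtain ⟨p, hp1, hp2⟩ := exists_polynomial_of_growth hd hgr
    exact ⟨p, hp1, fun x _ => hp2 x⟩
  have h1 := hint (fun t => f (z, t)) hpoly t ht
  simp only [Finset.mem_univ, if_true] at h1
  exact h1

end Vale.Agent.P281.ToricBundles
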